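import Vale.Agent.P281.H716.KL.X1
import Vale.Agent.P281.H368.MFS.Iface
import Vale.Agent.P281.H342.MFS.RW
import Vale.Agent.P281.H368.GM.K2

/-! P281, theorem U (numerical dimension), the `X` side: the metric data of a singular volume form, and
the quotients of decomposable tensors are constant along the kernel of `θ`. -/

open scoped Manifold ContDiff Topology ComplexOrder
open Set Filter Vale.Agent.P281 Vale.Agent.P272.K Vale.Agent.P272.K.AMP Vale.Agent.P299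
open Vale.Agent.P299.H882 (xi qf)
open Vale.Agent.P272.K.INT (IsClosedForm IsDensity)

set_option linter.all false

noncomputable section

namespace Vale.Agent.P281.H342.U

open Vale.Agent.P281.H713 Vale.Agent.P281.H713.SA Vale.Agent.P281.H713.KD Vale.Agent.P281.H716
open Vale.Agent.P281.H716.IsSys Vale.Agent.P281.H716.KL
open Vale.Agent.P281.H167.GM (mixX mixD addF phiD)
open Vale.Agent.P281.H227.GMC (isClosed_addF)
open Vale.Agent.P281.H167.KG (LocAt FormPartG)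
open Vale.Agent.P281.H368.MFS (IsSemiPos VolLoc ConAt SmallAt GrowthPartM)

section core

variable {n M : ℕ} {X : Type} [TopologicalSpace X] [T2Space X] [CompactSpace X]
  [ConnectedSpace X] [ChartedSpace (Cm n) X] [IsManifold 𝓘(ℂ, Cm n) ω X]

/-- `KL.core_shift`, with the growth of both classes. -/
theorem core_shiftU (hcore : CorePartLG) {χ : D.FormM n X} (hχ : IsKahler χ)
    {φ : Chart n X → Cm n → ℝ} (hφ : IsCanonicalMetric φ)
    {Dv : Fin M → Set X} {r : Fin M → X → ℝ} {R : Fin M → D.FormM n X} (hBd : IsBd Dv r R)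
    {dl dl' : Fin M → ℝ} (hdl : ∀ i, 0 ≤ dl i ∧ dl i < 1) (hle : ∀ i, dl i ≤ dl' i)
    {t : ℝ} (ht : 0 < t) {m m' : ℕ} (hm : 0 < m) (hm' : 0 < m')
    {ρ ρ₁ : X → ℝ} (hρ : SmoothFn (n := n) ρ) (hρ0 : ∀ x, 0 ≤ ρ x)
    (hρ₁ : SmoothFn (n := n) ρ₁) (hρ₁0 : ∀ x, 0 ≤ ρ₁ x)
    {C C' : ℝ}
    (hcurv : ∀ δ : ℝ, 0 < δ → ∀ e x, At e x → (clsK φ dl R e (e x) + (((m : ℝ)⁻¹ : ℝ) : ℂ) •
      hess (fun y => Real.log (ρ y + δ)) e (e x) +
      ((C * (δ / (ρ x + δ)) : ℝ) : ℂ) • χ e (e x)).PosSemidef)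
    (hcurv₁ : ∀ δ : ℝ, 0 < δ → ∀ e x, At e x →
      (clsK φ (fun i => dl i + t * (dl' i - dl i)) R e (e x) + (((m' : ℝ)⁻¹ : ℝ) : ℂ) •
      hess (fun y => Real.log (ρ₁ y + δ)) e (e x) +
      ((C' * (δ / (ρ₁ x + δ)) : ℝ) : ℂ) • χ e (e x)).PosSemidef)
    {θ β : D.FormM n X} (hθ : IsClosedForm θ) (hβ : IsClosedForm β)
    (hθ0 : ∀ e x, At e x → (θ e (e x)).PosSemidef) (hβ0 : ∀ e x, At e x → (β e (e x)).PosSemidef)
    {ν : ℕ} {C₂ : ℝ} (hC₂ : ∀ s : ℝ, 1 ≤ s → mixX (addF β s θ) (clsK φ dl R) ≤ C₂ * s ^ ν / s ∧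
      mixX (addF β s θ) (clsK φ (fun i => dl i + t * (dl' i - dl i)) R) ≤ C₂ * s ^ ν / s)
    {p μ : ℕ} {K : Fin M → ℕ} (hK : ∀ i, (K i : ℝ) ≤ μ * dl' i)
    {E : Fin M → ℕ} (hE : ∀ i, (E i : ℝ) = μ * (dl' i - dl i))
    {N₀ N₁ : D.FormM n X → X → ℝ} (hN : IsDecPair Dv r χ p μ K N₀ N₁)
    {u : X → ℝ} (hu : ∀ g x, IsKahler g → 0 < N₀ g x → 0 < N₁ g x →
      u x = Real.log (N₁ g x) - Real.log (N₀ g x))
    {e : Chart n X} {x : X} (he : At e x) (h0 : 0 < N₀ χ x) (h1 : 0 < N₁ χ x) (hρx : 0 < ρ x)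
    (hρ₁x : 0 < ρ₁ x) (hrx : ∀ i, 0 < r i x) (hβx : (β e (e x)).PosDef)
    (hθx : (θ e (e x)).rank = ν) (v : Cm n) (hv : ∀ j, ∑ i, v i * θ e (e x) i j = 0) :
    ∑ i, xi u e (e x) i * v i = 0 := by
  have hrs := fun i => bd_smooth' hBd i
  have hm0 : (0 : ℝ) < m := by exact_mod_cast hm
  have hm'0 : (0 : ℝ) < m' := by exact_mod_cast hm'
  set dl₁ : Fin M → ℝ := fun i => dl i + t * (dl' i - dl i) with hdl₁
  set Λ₀ : D.FormM n X := clsK φ dl R with hΛ₀d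
  set Λ₁ : D.FormM n X := clsK φ dl₁ R with hΛ₁d
  have hΛ₀ : IsClosedForm Λ₀ := H342.KG.closed_cls hBd.closed hφ
  have hΛ₁ : IsClosedForm Λ₁ := H342.KG.closed_cls hBd.closed hφ
  have hr0 : ∀ a : Fin M → ℕ, ∀ x, 0 ≤ ∏ i, r i x ^ a i := fun a x =>
    Finset.prod_nonneg fun i _ => pow_nonneg (H723.KD.r_nonneg hBd i x) _
  have hsplit : ∀ {a b : ℝ}, 0 ≤ a → 0 ≤ b → 0 < a * b → 0 < a ∧ 0 < b := by
    intro a b ha hb hab
    refine ⟨lt_of_le_of_ne ha fun h => ?_, lt_of_le_of_ne hb fun h => ?_⟩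
    · rw [← h, zero_mul] at hab; exact lt_irrefl _ hab
    · rw [← h, mul_zero] at hab; exact lt_irrefl _ hab
  have hprx : 0 < ∏ i, r i x ^ (E i - K i) := Finset.prod_pos fun i _ => pow_pos (hrx i) _
  refine hcore n M X χ hχ φ hφ m hm ρ hρ hρ0 Dv r R hBd dl hdl (max C C')
    (curvK_of hφ hρ hρ0 (curv_mono hχ hρ0 (le_max_left _ _) hcurv)) Λ₁ hΛ₁ m' hm' ρ₁ hρ₁ hρ₁0
    (curv_mono hχ hρ₁0 (le_max_right _ _) hcurv₁) (Vale.Agent.P281.H716.KL.LE E R) (closed_LE ⟨φ, hφ⟩ hBd.closed E)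
    (fun _ => 0) (smoothFn_const 0) (μ / t) (by positivity) ?_ θ β hθ hβ hθ0 hβ0 ν C₂
    ((eventually_ge_atTop 1).frequently.mono fun s hs => hC₂ s hs) p μ (fun i => K i - E i) ?_ _ _
    (dec_of hχ hBd hrs hN E) u ?_ e x he (mul_pos h0 hprx) (mul_pos h1 hprx) hρx hρ₁x hrx hβx hθx
    v hv
  · intro e x he
    have h2 : hess (fun _ : X => (0 : ℝ)) e (e x) = 0 := by
      have := H776.KL.addH_zero (n := n) (X := X) χ
      have h3 := congrFun (congrFun this e) (e x)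
      simp only [addH, add_eq_left] at h3
      exact h3
    rw [h2, zero_add]
    simp only [hΛ₁d, Vale.Agent.P281.H716.KL.LE, clsK, hdl₁]
    rw [add_sub_add_left_eq_sub, ← Finset.sum_sub_distrib, Finset.smul_sum]
    refine Finset.sum_congr rfl fun i _ => ?_
    rw [← sub_smul, smul_smul, hE i]
    congr 1
    have ht0 : (t : ℂ) ≠ 0 := by exact_mod_cast ht.ne'
    push_cast
    field_simp
    ring
  · intro i
    have h2 : (K i : ℝ) ≤ μ * dl i + E i := by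
      rw [hE i]
      have := hK i
      linarith
    rcases le_total (K i) (E i) with h3 | h3
    · rw [Nat.sub_eq_zero_of_le h3, Nat.cast_zero]
      exact mul_nonneg (Nat.cast_nonneg _) (hdl i).1
    · rw [Nat.cast_sub h3]
      linarith
  · intro g x hg hx0 hx1
    obtain ⟨h2, h3⟩ := hsplit (hN.nonneg g x hg).1 (hr0 _ x) hx0
    obtain ⟨h4, -⟩ := hsplit (hN.nonneg g x hg).2 (hr0 _ x) hx1
    rw [hu g x hg h2 h4, Real.log_mul h4.ne' h3.ne', Real.log_mul h2.ne' h3.ne']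
    ring

end core

section met

variable {n M : ℕ} {X : Type} [TopologicalSpace X] [T2Space X] [CompactSpace X]
  [ConnectedSpace X] [ChartedSpace (Cm n) X] [IsManifold 𝓘(ℂ, Cm n) ω X]

theorem closed_add {θ₀ θ₁ θ : D.FormM n X} (h₀ : IsClosedForm θ₀) (h₁ : IsClosedForm θ₁)
    (h : ∀ e z, θ e z = θ₀ e z + θ₁ e z) : IsClosedForm θ := by
  have h2 : θ = addF θ₀ 1 θ₁ := by
    funext e z
    show θ e z = θ₀ e z + ((1 : ℝ) : ℂ) • θ₁ e z
    rw [Complex.ofReal_one, one_smul, h]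
  rw [h2]
  exact isClosed_addF h₀ h₁ 1

/-- the mixed integrals of semipositive forms are nonnegative -/
theorem mixX_nn {A B : D.FormM n X} (hA : ∀ e x, At e x → (A e (e x)).PosSemidef)
    (hB : ∀ e x, At e x → (B e (e x)).PosSemidef) : 0 ≤ mixX A B :=
  INT.intX_nonneg fun e x hx => H368.GM.mixD_nonneg (hA e x hx) (hB e x hx)

/-- **the metric data of a singular volume form** `W` with curvature `η ≤ θ` -/
theorem metU (hform : FormPartG) (hgr : GrowthPartM) {χ : D.FormM n X} (hχ : IsKahler χ)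
    {T : Finset (Set X)}
    (hsX : IsSys n (fun (D : Set X) z g => J.IsLocalEq (Cm n) D g z) T)
    {Dv : Fin M → Set X} (hprod : ∀ f : Set X → ℂ, ∏ i, f (Dv i) = ∏ D ∈ T, f D)
    (hDv : ∀ i, Dv i ∈ T) {ψ : Fin M → X → X → ℝ}
    (hψ : ∀ i, Vale.Agent.P285.TM.Wt (H342.KD.OD hsX (Dv i) (hDv i)) (ψ i))
    {φ : Chart n X → Cm n → ℝ} (hφ : IsCanonicalMetric φ)
    {r : Fin M → X → ℝ}
    (hBd : IsBd Dv r fun i => Vale.Agent.P285.TM.cv (H342.KD.OD hsX (Dv i) (hDv i)) (ψ i))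
    {m : ℕ} (hm : 0 < m) {k : Set X → ℕ} (hksupp : ∀ D, k D ≠ 0 → D ∈ T) {dl : Fin M → ℝ}
    (hk : ∀ i, (k (Dv i) : ℝ) = m * dl i)
    {η θ' θ β : D.FormM n X} (hη : IsSemiPos η) (hθ' : IsSemiPos θ') (hθ : IsSemiPos θ)
    (hsum : ∀ e z, θ e z = η e z + θ' e z) (hβ : IsSemiPos β)
    {ν : ℕ} (hν : ∀ e x, At e x → (θ e (e x)).rank ≤ ν) {W : X → ℝ}
    (hW : ∀ x, ∃ (r : ℕ) (g : Fin r → X → ℂ) (a : Fin r → ℕ),
      VolLoc n m (fun (D : Set X) z g => J.IsLocalEq (Cm n) D g z) k W (fun _ _ => 0) η x g a ∧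
      ∀ᶠ z in 𝓝 x, ∀ i, g i z = 0 → ConAt n (g i) β θ z ∨ SmallAt n ν (g i) θ z) :
    ∃ (ρ : X → ℝ) (C C₁ : ℝ), SmoothFn (n := n) ρ ∧ (∀ x, 0 ≤ ρ x) ∧ Dense {x | 0 < ρ x} ∧
      (∀ δ : ℝ, 0 < δ → ∀ e x, At e x → (clsK φ dl
        (fun i => Vale.Agent.P285.TM.cv (H342.KD.OD hsX (Dv i) (hDv i)) (ψ i)) e (e x) +
        (((m : ℝ)⁻¹ : ℝ) : ℂ) • hess (fun y => Real.log (ρ y + δ)) e (e x) +
        ((C * (δ / (ρ x + δ)) : ℝ) : ℂ) • χ e (e x)).PosSemidef) ∧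
      ∀ s : ℝ, 1 ≤ s → mixX (addF β s θ) (clsK φ dl
        (fun i => Vale.Agent.P285.TM.cv (H342.KD.OD hsX (Dv i) (hDv i)) (ψ i))) ≤
          C₁ * s ^ ν / s := by
  classical
  set R : Fin M → D.FormM n X :=
    fun i => Vale.Agent.P285.TM.cv (H342.KD.OD hsX (Dv i) (hDv i)) (ψ i) with hR
  set ρ : X → ℝ := H342.MFS.rhoW hsX Dv ψ φ k m W with hρdef
  set Λ : D.FormM n X := fun e z => clsK φ dl R e z - (η e z - 0) with hΛdef
  have hηc := hη.isClosedForm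
  have hθ'c := hθ'.isClosedForm
  have hθc := hθ.isClosedForm
  have hβc := hβ.isClosedForm
  have hcls : IsClosedForm (clsK φ dl R) := H342.KG.closed_cls hBd.closed hφ
  have hΛ : IsClosedForm Λ := by
    have h1 : Λ = addF (clsK φ dl R) (-1) η := by
      funext e z
      show clsK φ dl R e z - (η e z - 0) = clsK φ dl R e z + (((-1 : ℝ) : ℝ) : ℂ) • η e z
      rw [Complex.ofReal_neg, Complex.ofReal_one, neg_one_smul, sub_zero]
      abel
    rw [h1]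
    exact isClosed_addF hcls hηc (-1)
  have hloc : ∀ x, ∃ (r : ℕ) (g : Fin r → X → ℂ) (a : Fin r → ℕ) (w : X → ℂ),
      LocAt m Λ ρ x g a (fun (_ : Fin 1) => w) ∧
      ∀ᶠ z in 𝓝 x, ∀ i, g i z = 0 → ConAt n (g i) β θ z ∨ SmallAt n ν (g i) θ z := by
    intro x
    obtain ⟨r, g, a, hV, hD⟩ := hW x
    obtain ⟨T', q, u, h1, h2, h3, h4⟩ := hV.loc
    obtain ⟨w, -, -, hL⟩ := H342.MFS.locW (dl := dl) (B := fun e z => η e z - 0) hsX hprod hDv
      hψ hφ hksupp hk h1 h2 hV.holg h3 h4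
    exact ⟨r, g, a, w, hL, hD⟩
  obtain ⟨C, -, hC0, hρs, hρ0, hρd, -, -, hcurv, -⟩ := hform n X χ hχ m hm Λ hΛ ρ fun x => by
    obtain ⟨r, g, a, w, hL, -⟩ := hloc x
    exact ⟨r, 1, g, a, _, hL⟩
  obtain ⟨C₁, hC₁⟩ := hgr n X χ hχ m hm Λ hΛ ρ hρs hρ0 β θ hβ hθ ν hν hloc
  refine ⟨ρ, C, 2 * C₁, hρs, hρ0, hρd, ?_, ?_⟩
  · intro δ hδ e x hx
    have h1 := hcurv δ hδ e x hx
    have h2 := h1.add (hη.posSemidef e x hx)
    have h6 : Λ e (e x) = clsK φ dl R e (e x) - (η e (e x) - 0) := rfl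
    have h7 : clsK φ dl R e (e x) + (((m : ℝ)⁻¹ : ℝ) : ℂ) •
        hess (fun y => Real.log (ρ y + δ)) e (e x) +
        ((C * (δ / (ρ x + δ)) : ℝ) : ℂ) • χ e (e x) =
        Λ e (e x) + (((m : ℝ)⁻¹ : ℝ) : ℂ) • hess (fun y => Real.log (ρ y + δ)) e (e x) +
          ((C * (δ / (ρ x + δ)) : ℝ) : ℂ) • χ e (e x) + η e (e x) := by
      rw [h6]
      abel
    rw [h7]
    exact h2
  · intro s hs
    obtain ⟨h1, h2⟩ := hC₁ s hs
    have hA := isClosed_addF hβc hθc s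
    have hs0 : (0 : ℝ) ≤ s := zero_le_one.trans hs
    have hA0 : ∀ e x, At e x → (addF β s θ e (e x)).PosSemidef := fun e x he =>
      (hβ.posSemidef e x he).add ((hθ.posSemidef e x he).smul (by exact_mod_cast hs0))
    have h3 : mixX (addF β s θ) (clsK φ dl R) =
        1 * mixX (addF β s θ) Λ + 1 * mixX (addF β s θ) η := by
      refine mixX_comb hA hΛ hηc fun e x he => ?_
      show clsK φ dl R e (e x) = ((1 : ℝ) : ℂ) • (clsK φ dl R e (e x) - (η e (e x) - 0)) +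
        ((1 : ℝ) : ℂ) • η e (e x)
      rw [Complex.ofReal_one, one_smul, one_smul]
      abel
    have h4 : mixX (addF β s θ) θ =
        1 * mixX (addF β s θ) η + 1 * mixX (addF β s θ) θ' := by
      refine mixX_comb hA hηc hθ'c fun e x he => ?_
      rw [Complex.ofReal_one, one_smul, one_smul, hsum]
    have h5 : 0 ≤ mixX (addF β s θ) θ' := mixX_nn hA0 hθ'.posSemidef
    rw [h3]
    calc 1 * mixX (addF β s θ) Λ + 1 * mixX (addF β s θ) η ≤ C₁ * s ^ ν / s + C₁ * s ^ ν / s := by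
          linarith
      _ = 2 * C₁ * s ^ ν / s := by ring

end met

end Vale.Agent.P281.H342.U
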