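import Vale.Agent.P281.H949.MFS.DG
import Vale.Agent.P281.H716.MainC
import Vale.Agent.P281.H713.TL.Defs

/-! P281, theorem U (numerical dimension): the dimension count. -/

open scoped Manifold ContDiff Topology ComplexOrder Matrix
open Set Filter Vale.Agent.P281 Vale.Agent.P272.K Vale.Agent.P299.D Vale.Agent.P299.H956
open Vale.Agent.P281.H949.SA Vale.Agent.P281.H716.IsSys Vale.Agent.P281.MF Vale.Agent.P281.ISO
open Vale.Agent.P281.H716
open Vale.Agent.P281.H368.MFS (IsSemiPos InKer jacI pull)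
open Vale.Agent.P281.H949.MFS (finrank_ker ker_limit inKer_iff ker_eq_range inKer_change inKer_pull
  jacF_cont hol_nhds)

set_option linter.all false

noncomputable section

namespace Vale.Agent.P281.H342.U

open Vale.Agent.P281.H713.TL (IsPullSection kodF)

/-! ### linear algebra -/

lemma finrank_ker' {p n : ℕ} (A : Matrix (Fin p) (Fin n) ℂ) (hA : Function.Surjective A.mulVec) :
    p + Module.finrank ℂ (LinearMap.ker A.mulVecLin) = n := by
  have h := LinearMap.finrank_range_add_finrank_ker A.mulVecLin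
  have h4 : LinearMap.range A.mulVecLin = ⊤ := LinearMap.range_eq_top.2 hA
  rw [h4, finrank_top, Module.finrank_fin_fun, Module.finrank_fin_fun] at h
  exact h

theorem count {n p d l ν νF : ℕ} (hn : n = p + d) {A : Matrix (Fin p) (Fin n) ℂ}
    {B : Matrix (Fin n) (Fin n) ℂ} (hA : Function.Surjective A.mulVec) (hB : B.rank ≤ ν)
    (hAB : Module.finrank ℂ (LinearMap.ker (Matrix.fromRows B A).mulVecLin) + νF ≤ d)
    {D : Cm n →ₗ[ℂ] (Fin l → ℂ)} (hD : Function.Surjective D)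
    (hDA : ∀ w, A *ᵥ w = 0 → D w = 0) (hDB : ∀ w, B *ᵥ w = 0 → D w = 0) : νF + l ≤ ν := by
  have h1 := finrank_ker' A hA
  have h2 := finrank_ker B
  have h3 : l + Module.finrank ℂ (LinearMap.ker D) = n := by
    have h := LinearMap.finrank_range_add_finrank_ker D
    rw [LinearMap.range_eq_top.2 hD, finrank_top, Module.finrank_fin_fun,
      Module.finrank_fin_fun] at h
    exact h
  have h4 := Submodule.finrank_sup_add_finrank_inf_eq (LinearMap.ker A.mulVecLin)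
    (LinearMap.ker B.mulVecLin)
  have h5 : LinearMap.ker A.mulVecLin ⊔ LinearMap.ker B.mulVecLin ≤ LinearMap.ker D := by
    refine sup_le (fun w hw => ?_) fun w hw => ?_
    · exact hDA w hw
    · exact hDB w hw
  have h6 : Module.finrank ℂ (LinearMap.ker A.mulVecLin ⊔ LinearMap.ker B.mulVecLin :
      Submodule ℂ (Fin n → ℂ)) ≤ Module.finrank ℂ (LinearMap.ker D) := Submodule.finrank_mono h5
  have h7 : LinearMap.ker A.mulVecLin ⊓ LinearMap.ker B.mulVecLin ≤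
      LinearMap.ker (Matrix.fromRows B A).mulVecLin := by
    rintro w ⟨hw1, hw2⟩
    have h8 : A *ᵥ w = 0 := hw1
    have h9 : B *ᵥ w = 0 := hw2
    rw [LinearMap.mem_ker, Matrix.mulVecLin_apply, Matrix.fromRows_mulVec, h8, h9]
    funext k
    rcases k with k | k <;> rfl
  have h8 := Submodule.finrank_mono h7
  omega

/-! ### `kodF` -/

section kodF

variable {n p : ℕ} {X Z Y : Type} [TopologicalSpace X] [ChartedSpace (Cm n) X]
  [TopologicalSpace Z] [ChartedSpace (Cm n) Z] [TopologicalSpace Y] [ChartedSpace (Cm p) Y]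

theorem add_kodF_le {Δ : Set X → ℝ} {j : Z → X} {f : Z → Y} {a ν : ℕ}
    (h : ∀ l : ℕ, (∃ (m : ℕ) (K : Set X → ℕ) (𝒢 : Set (Set Y)) (σ : ℕ → Y → ℂ) (y : Y), 0 < m ∧
      (∀ D, (K D : ℝ) ≤ m * Δ D) ∧ 𝒢.Finite ∧ (∀ G ∈ 𝒢, J.IsPrime (Cm p) G) ∧
      (∀ b, IsPullSection (n := n) (p := p) m K 𝒢 j f (σ b)) ∧ (∀ G ∈ 𝒢, y ∉ G) ∧ σ 0 y ≠ 0 ∧
      Function.Surjective fun (ξ : Cm p) (b : Fin l) =>
        J.dif (Cm p) (fun w => σ (b + 1) w / σ 0 w) y ξ) → a + l ≤ ν) :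
    ((a : ℕ∞) : WithBot ℕ∞) + kodF (n := n) (p := p) Δ j f ≤ ((ν : ℕ∞) : WithBot ℕ∞) := by
  classical
  set Q : ℕ → Prop := fun l => ∃ (m : ℕ) (K : Set X → ℕ) (𝒢 : Set (Set Y)) (σ : ℕ → Y → ℂ) (y : Y),
      0 < m ∧
      (∀ D, (K D : ℝ) ≤ m * Δ D) ∧ 𝒢.Finite ∧ (∀ G ∈ 𝒢, J.IsPrime (Cm p) G) ∧
      (∀ b, IsPullSection (n := n) (p := p) m K 𝒢 j f (σ b)) ∧ (∀ G ∈ 𝒢, y ∉ G) ∧ σ 0 y ≠ 0 ∧
      Function.Surjective fun (ξ : Cm p) (b : Fin l) =>
        J.dif (Cm p) (fun w => σ (b + 1) w / σ 0 w) y ξ with hQ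
  have hk : kodF (n := n) (p := p) Δ j f = ⨆ (l : ℕ) (_ : Q l), ((l : ℕ∞) : WithBot ℕ∞) := rfl
  have hb : ∀ l, Q l → l ≤ ν := fun l hl => (Nat.le_add_left l a).trans (h l hl)
  by_cases hne : ∃ l, Q l
  · obtain ⟨l, hl⟩ := hne
    have h1 : Q (Nat.findGreatest Q ν) := Nat.findGreatest_spec (hb l hl) hl
    have h2 : kodF (n := n) (p := p) Δ j f =
        (((Nat.findGreatest Q ν : ℕ) : ℕ∞) : WithBot ℕ∞) := by
      rw [hk]
      refine le_antisymm (iSup₂_le fun l hl => ?_) (le_iSup₂_of_le _ h1 le_rfl)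
      exact_mod_cast Nat.le_findGreatest (hb l hl) hl
    rw [h2]
    exact_mod_cast h _ h1
  · have h2 : kodF (n := n) (p := p) Δ j f = ⊥ := by
      rw [hk, iSup₂_eq_bot]
      intro l hl
      exact absurd ⟨l, hl⟩ hne
    rw [h2, WithBot.add_bot]
    exact bot_le

end kodF

/-! ### the count -/

variable {n p d : ℕ} {X Z Y F : Type}
  [TopologicalSpace X] [T2Space X] [CompactSpace X] [ConnectedSpace X]
  [ChartedSpace (Cm n) X] [IsManifold 𝓘(ℂ, Cm n) ω X]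
  [TopologicalSpace Z] [ChartedSpace (Cm n) Z] [IsManifold 𝓘(ℂ, Cm n) ω Z]
  [TopologicalSpace Y] [T2Space Y] [ConnectedSpace Y]
  [ChartedSpace (Cm p) Y] [IsManifold 𝓘(ℂ, Cm p) ω Y]
  [TopologicalSpace F] [T2Space F] [CompactSpace F] [ConnectedSpace F]
  [ChartedSpace (Cm d) F] [IsManifold 𝓘(ℂ, Cm d) ω F]

/-- **U-A**: the dimension count. -/
theorem absU (hn : n = p + d) {Δ : Set X → ℝ} (hΔ : J.IsSNC (Cm n) Δ)
    {j : Z → X} (hj : J.IsBigOpen (Cm n) j) {f : Z → Y}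
    (hf : ContMDiff 𝓘(ℂ, Cm n) 𝓘(ℂ, Cm p) ω f)
    {i : F → Z} (hi : H713.IsSmoothFibre (Cm n) (Cm p) (Cm d) f i)
    {θ : FormM n X} (hθ : IsSemiPos θ) {ν : ℕ} (hν : ∀ e x, At e x → (θ e (e x)).rank ≤ ν)
    {νF : ℕ} (hνF : ∃ t, νF ≤
      (pull (fun t => j (i t)) θ (chartAt (Cm d) t) (chartAt (Cm d) t t)).rank)
    {R' : Set X} (hRo : IsOpen R') (hRd : Dense R')
    (hX : ∀ 𝒢 : Set (Set Y), 𝒢.Finite → (∀ G ∈ 𝒢, J.IsPrime (Cm p) G) →
      ∀ (m : ℕ) (K : Set X → ℕ), 0 < m → (∀ D, (K D : ℝ) ≤ m * Δ D) →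
      ∀ σ₀ σ₁ : Y → ℂ, IsPullSection (n := n) (p := p) m K 𝒢 j f σ₀ →
        IsPullSection (n := n) (p := p) m K 𝒢 j f σ₁ →
      ∀ z : Z, j z ∈ R' → (∀ D, Δ D ≠ 0 → j z ∉ D) → f z ∉ ⋃₀ 𝒢 →
        Function.Surjective (dM (Cm n) (Cm p) f z) → σ₀ (f z) ≠ 0 → ∀ v : Cm n,
        InKer (θ (chartAt (Cm n) (j z)) (chartAt (Cm n) (j z) (j z))) (dM (Cm n) (Cm n) j z v) →
        J.dif (Cm n) (fun z => σ₁ (f z) / σ₀ (f z)) z v = 0) :
    ((νF : ℕ∞) : WithBot ℕ∞) + kodF (n := n) (p := p) Δ j f ≤ ((ν : ℕ∞) : WithBot ℕ∞) := by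
  classical
  refine add_kodF_le fun l hl => ?_
  obtain ⟨m₂, KΔ, 𝒢, σN, y₀, hm₂, hKΔ, h𝒢fin, h𝒢pr, hpull, hy₀𝒢, hσ0, hσlN⟩ := hl
  set σ : Fin (l + 1) → Y → ℂ := fun b => σN b with hσd
  have hσ0 : σ 0 y₀ ≠ 0 := hσ0
  have hσl : LinearIndependent ℂ (fun b : Fin l =>
      dif (Cm p) (fun w => σ b.succ w / σ 0 w) y₀) :=
    JB.linearIndependent_of_surjective hσlN
  choose kb hkb hkbs using fun b : Fin (l + 1) => (hpull b).mero
  set k : Set Y → ℕ := fun G => ∑ b, kb b G with hkd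
  have hjh : ∀ z, HolM (Cm n) (Cm n) j z := fun z => hj.1 z
  have hfh : ∀ z, HolM (Cm n) (Cm p) f z := fun z => hf z
  have hθf : IsForm θ := hθ.change
  have hθc : ∀ e x, At e x → ∀ i j, ContinuousAt (fun z => θ e z i j) (e x) :=
    fun e x h i j => (hθ.smooth e x h i j).continuousAt
  -- the boundary of `Y`
  set TY : Finset (Set Y) := h𝒢fin.toFinset with hTYdef
  have hTY : ∀ G, G ∈ TY ↔ G ∈ 𝒢 := fun G => Set.Finite.mem_toFinset _
  have hTYex : ∀ G ∈ TY, ∀ x, ∃ g, J.IsLocalEq (Cm p) G g x := fun G hG =>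
    (h𝒢pr G ((hTY G).1 hG)).2.1
  have hsY : IsSys p (eqL p) TY := isSys_eqL hTYex
  have hkG : ∀ G, k G ≠ 0 → G ∈ 𝒢 := by
    intro G hG
    obtain ⟨b, -, hb⟩ := Finset.exists_ne_zero_of_sum_ne_zero hG
    exact hkb b G hb
  have hkGT : ∀ G, k G ≠ 0 → G ∈ TY := fun G hG => (hTY G).2 (hkG G hG)
  have hσ : ∀ b, J.IsSection (Cm p) (eqL p) m₂ k (σ b) := fun b =>
    hsY.mono (fun G => Finset.single_le_sum (f := fun b => kb b G) (fun _ _ => Nat.zero_le _)
      (Finset.mem_univ b)) hkGT (hkbs b)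
  have hkfin : {G | k G ≠ 0}.Finite := h𝒢fin.subset fun G hG => hkG G hG
  have hkpr : ∀ G, k G ≠ 0 → IsPrimeDivisor (Cm p) G := fun G hG => h𝒢pr G (hkG G hG)
  have hy₀ : ∀ G, k G ≠ 0 → y₀ ∉ G := fun G hG => hy₀𝒢 G (hkG G hG)
  have hodY := H713.SA.ind_open_dense (n := p) (κ := k) (s := σ) hkfin hkpr hσ ⟨y₀, hy₀, hσ0, hσl⟩
  have h𝒢od := dense_compl_finite (X := Y) h𝒢fin (fun G hG => (h𝒢pr G hG).1) (fun G hG => by
    rw [dense_iff_inter_open]
    intro U hU hUne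
    obtain ⟨x, hxU, hxD⟩ := IsLocalEq.exists_notMem (h𝒢pr G hG).2.1 hU hUne
    exact ⟨x, hxU, hxD⟩)
  have hDpr : ∀ D, Δ D ≠ 0 → IsPrimeDivisor (Cm n) D := fun D hD => (JB.snc hΔ).prime D hD
  have hoff := dense_compl_finite (X := X) hΔ.1 (fun D hD => (hDpr D hD).1) (fun D hD => by
    rw [dense_iff_inter_open]
    intro U hU hUne
    obtain ⟨x, hxU, hxD⟩ := IsLocalEq.exists_notMem (hDpr D hD).2.1 hU hUne
    exact ⟨x, hxU, hxD⟩)
  set R : Set X := R' ∩ {x | ∀ D ∈ {D | Δ D ≠ 0}, x ∉ D} with hR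
  have hRo' : IsOpen R := hRo.inter hoff.1
  have hRd' : Dense R := hRd.inter_of_isOpen_left hoff.2 hRo
  -- the point `z₁`
  obtain ⟨t, ht⟩ := hνF
  have hit : ContMDiffAt 𝓘(ℂ, Cm d) 𝓘(ℂ, Cm n) ω i t := hi.hol.contMDiffAt
  have hjz : ContMDiffAt 𝓘(ℂ, Cm n) 𝓘(ℂ, Cm n) ω j (i t) := hjh (i t)
  have hfz : ContMDiffAt 𝓘(ℂ, Cm n) 𝓘(ℂ, Cm p) ω f (i t) := hfh (i t)
  have hιt : ContMDiffAt 𝓘(ℂ, Cm d) 𝓘(ℂ, Cm n) ω (fun t => j (i t)) t := hjz.comp t hit
  set c : Chart n Z := chartAt (Cm n) (i t) with hcd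
  set E : Chart n X := chartAt (Cm n) (j (i t)) with hEd
  set c' : Chart p Y := chartAt (Cm p) (f (i t)) with hcd'
  have hct : At (chartAt (Cm d) t) t := at_chartAt (n := d) t
  have hcz : At c (i t) := at_chartAt (n := n) (i t)
  have hEz : At E (j (i t)) := at_chartAt (n := n) (j (i t))
  have hc'z : At c' (f (i t)) := at_chartAt (n := p) (f (i t))
  set B : Z → Matrix (Fin n) (Fin n) ℂ := fun w => (θ E (E (j w)))ᵀ * jacF j c E w with hB
  set A : Z → Matrix (Fin p) (Fin n) ℂ := fun w => jacF f c c' w with hA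
  have hBc : ContinuousAt B (i t) := by
    have h2 : ContinuousAt (fun w => θ E (E (j w))) (i t) := by
      refine continuousAt_pi.2 fun a => continuousAt_pi.2 fun b => ?_
      have h3 : ContinuousAt (fun w => E (j w)) (i t) :=
        ContinuousAt.comp (g := E) (E.continuousAt hEz.2) hjz.continuousAt
      exact ContinuousAt.comp (g := fun w => θ E w a b) (f := fun w => E (j w))
        (hθc E (j (i t)) hEz a b) h3
    have h4 : ContinuousAt (fun w => (θ E (E (j w)))ᵀ) (i t) :=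
      (continuous_id.matrix_transpose
        (A := fun M : Matrix (Fin n) (Fin n) ℂ => M)).continuousAt.comp h2
    exact (continuous_fst.matrix_mul continuous_snd).continuousAt.comp
      (h4.prodMk (jacF_cont hjz hcz hEz))
  have hAc : ContinuousAt A (i t) := jacF_cont hfz hcz hc'z
  have hAs : Function.Surjective (A (i t)).mulVec := by
    intro y
    obtain ⟨v, hv⟩ := hi.submersive t y
    exact ⟨v, (mfderiv_eq_jacF hfz v).symm.trans hv⟩
  -- the kernel at `z₁`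
  have h0 : Module.finrank ℂ (LinearMap.ker (Matrix.fromRows (B (i t)) (A (i t))).mulVecLin) +
      νF ≤ d := by
    have h4 := ker_eq_range hn (A := A (i t)) (W := jacF i (chartAt (Cm d) t) c t) hAs ?_ ?_
    · set Q : Matrix (Fin d) (Fin d) ℂ :=
        pull (fun t => j (i t)) θ (chartAt (Cm d) t) (chartAt (Cm d) t t) with hQ
      have h5 : LinearMap.ker (Matrix.fromRows (B (i t)) (A (i t))).mulVecLin ≤
          (LinearMap.ker Qᵀ.mulVecLin).map (jacF i (chartAt (Cm d) t) c t).mulVecLin := by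
        intro w hw
        rw [LinearMap.mem_ker, Matrix.mulVecLin_apply, Matrix.fromRows_mulVec] at hw
        have hw1 : B (i t) *ᵥ w = 0 := funext fun a => congrFun hw (Sum.inl a)
        have hw2 : w ∈ LinearMap.ker (A (i t)).mulVecLin := funext fun a => congrFun hw (Sum.inr a)
        rw [h4] at hw2
        obtain ⟨u, rfl⟩ := hw2
        refine ⟨u, ?_, rfl⟩
        have h6 : InKer (θ E (E (j (i t))))
            (jacF (fun t => j (i t)) (chartAt (Cm d) t) E t *ᵥ u) := by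
          rw [inKer_iff, jacF_comp hit hjz hct hcz hEz, Matrix.mulVec_mulVec]
          rw [Matrix.mulVecLin_apply, Matrix.mulVec_mulVec] at hw1
          simp only [hB] at hw1
          rw [Matrix.mul_assoc] at hw1
          exact hw1
        have h7 := inKer_pull hθf hιt hct hEz h6
        rw [inKer_iff] at h7
        exact h7
      have h6 := Submodule.finrank_mono h5
      have h7 := (Submodule.finrank_map_le (jacF i (chartAt (Cm d) t) c t).mulVecLin
        (LinearMap.ker Qᵀ.mulVecLin))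
      have h8 := finrank_ker Qᵀ
      rw [Matrix.rank_transpose] at h8
      omega
    · have h1 := Vale.Agent.P281.H167.SA.immersive_of_mfderiv hi.hol hi.immersive
      intro u u' huu
      have h2 : jacF i (chartAt (Cm d) t) c t *ᵥ (u - u') = 0 := by
        rw [Matrix.mulVec_sub]
        exact sub_eq_zero.2 huu
      exact sub_eq_zero.1 (h1 _ _ t hct hcz _ h2)
    · have h1 : jacF (fun y => f (i y)) (chartAt (Cm d) t) c' t =
          A (i t) * jacF i (chartAt (Cm d) t) c t := jacF_comp hit hfz hct hcz hc'z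
      have h2 : (fun y => f (i y)) = fun _ => f (i t) := funext fun s => hi.const s t
      rw [← h1, h2]
      ext a b
      simp [jacF, dz]
  -- the open set
  have hev1 : ∀ᶠ z in 𝓝 (i t), Module.finrank ℂ
      (LinearMap.ker (Matrix.fromRows (B z) (A z)).mulVecLin) + νF ≤ d := by
    by_contra hcon
    have h1 := ker_limit (n := n) (z₀ := i t) (A := fun w => Matrix.fromRows (B w) (A w))
      (q := d - νF + 1) ?_ ?_
    · omega
    · rintro (a | a) b
      · exact ((continuous_apply b).comp (continuous_apply a)).continuousAt.comp hBc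
      · exact ((continuous_apply b).comp (continuous_apply a)).continuousAt.comp hAc
    · have h2 : ∃ᶠ z in 𝓝 (i t), ¬ (Module.finrank ℂ
        (LinearMap.ker (Matrix.fromRows (B z) (A z)).mulVecLin) + νF ≤ d) :=
          Filter.not_eventually.1 hcon
      refine h2.mono fun z hz => ?_
      omega
  have hev2 : ∀ᶠ z in 𝓝 (i t), Function.Surjective (A z).mulVec := by
    have h1 : ∀ᶠ z in 𝓝 (i t), Module.finrank ℂ (LinearMap.ker (A z).mulVecLin) ≤ d := by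
      by_contra hcon
      have h1 := ker_limit (n := n) (z₀ := i t) (A := A) (q := d + 1) ?_ ?_
      · have h2 := finrank_ker' (A (i t)) hAs
        omega
      · intro a b
        exact ((continuous_apply b).comp (continuous_apply a)).continuousAt.comp hAc
      · have h2 : ∃ᶠ z in 𝓝 (i t), ¬ (Module.finrank ℂ (LinearMap.ker (A z).mulVecLin) ≤ d) :=
          Filter.not_eventually.1 hcon
        refine h2.mono fun z hz => ?_
        omega
    filter_upwards [h1] with z hz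
    have h2 := LinearMap.finrank_range_add_finrank_ker (A z).mulVecLin
    rw [Module.finrank_fin_fun] at h2
    have h3 : LinearMap.range (A z).mulVecLin = ⊤ := by
      refine Submodule.eq_top_of_finrank_eq (le_antisymm (Submodule.finrank_le _) ?_)
      rw [Module.finrank_fin_fun]
      omega
    exact LinearMap.range_eq_top.1 h3
  have hev : ∀ᶠ z in 𝓝 (i t), (Module.finrank ℂ
      (LinearMap.ker (Matrix.fromRows (B z) (A z)).mulVecLin) + νF ≤ d) ∧
      Function.Surjective (A z).mulVec ∧ z ∈ c.source ∧ j z ∈ E.source ∧ f z ∈ c'.source := by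
    filter_upwards [hev1, hev2, c.open_source.mem_nhds hcz.2,
      hjz.continuousAt.eventually (E.open_source.mem_nhds hEz.2),
      hfz.continuousAt.eventually (c'.open_source.mem_nhds hc'z.2)] with z h1 h2 h3 h4 h5
    exact ⟨h1, h2, h3, h4, h5⟩
  obtain ⟨O, hO, hOo, hzO⟩ := eventually_nhds_iff.1 hev
  have hjRd : Dense (j ⁻¹' R) := hRd'.preimage hj.2.1.isOpenMap
  obtain ⟨z', hz'O, hz'R⟩ := hjRd.inter_open_nonempty O hOo ⟨i t, hzO⟩
  have hsub : ∀ z ∈ O, Function.Surjective (dM (Cm n) (Cm p) f z) := by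
    intro z hz η
    obtain ⟨-, h2, h3, h4, h5⟩ := hO z hz
    have hc1 : At c z := ⟨hcz.1, h3⟩
    have hc2 : At c' (f z) := ⟨hc'z.1, h5⟩
    have hc3 : At (chartAt (Cm n) z) z := at_chartAt (n := n) z
    have hc4 : At (chartAt (Cm p) (f z)) (f z) := at_chartAt (n := p) (f z)
    have hfz' : ContMDiffAt 𝓘(ℂ, Cm n) 𝓘(ℂ, Cm p) ω f z := hfh z
    obtain ⟨w, hw⟩ := h2 (jacM (chartAt (Cm p) (f z)) c' (f z) *ᵥ η)
    refine ⟨jacM c (chartAt (Cm n) z) z *ᵥ w, ?_⟩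
    have h6 : dM (Cm n) (Cm p) f z (jacM c (chartAt (Cm n) z) z *ᵥ w) =
        jacF f (chartAt (Cm n) z) (chartAt (Cm p) (f z)) z *ᵥ (jacM c (chartAt (Cm n) z) z *ᵥ w) :=
      mfderiv_eq_jacF hfz' _
    rw [h6, Matrix.mulVec_mulVec, ← jacF_left hfz' hc1 hc3 hc4]
    have h7 : jacM (chartAt (Cm p) (f z)) c' (f z) *ᵥ (jacF f c (chartAt (Cm p) (f z)) z *ᵥ w) =
        jacM (chartAt (Cm p) (f z)) c' (f z) *ᵥ η := by
      rw [Matrix.mulVec_mulVec, ← jacF_right hfz' hc1 hc4 hc2]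
      exact hw
    have h8 := congrArg (fun v => jacM c' (chartAt (Cm p) (f z)) (f z) *ᵥ v) h7
    simp only [Matrix.mulVec_mulVec] at h8
    rw [← Matrix.mul_assoc, jacM_mul hc4 hc2, Matrix.one_mul, Matrix.one_mulVec] at h8
    exact h8
  have hO' : O ∩ j ⁻¹' R ∈ 𝓝 z' := (hOo.inter (hRo'.preimage hj.1.continuous)).mem_nhds
    ⟨hz'O, hz'R⟩
  have himg : f '' (O ∩ j ⁻¹' R) ∈ 𝓝 (f z') :=
    H713.SA.nhds_le_map (hfh z') (hsub z' hz'O) (image_mem_map hO')
  have hYd : Dense (H713.SA.Ind (n := p) k σ ∩ {y | ∀ G ∈ 𝒢, y ∉ G}) :=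
    hodY.2.inter_of_isOpen_left h𝒢od.2 hodY.1
  obtain ⟨y₂, hy₂I, hy₂⟩ := hYd.inter_nhds_nonempty himg
  obtain ⟨z, ⟨hz₂O, hz₂R, hz₂Δ⟩, rfl⟩ := hy₂
  obtain ⟨⟨hkz, hσz, hσlz⟩, h𝒢z⟩ := hy₂I
  obtain ⟨hr, hAz, h3, h4, h5⟩ := hO z hz₂O
  have hc1 : At c z := ⟨hcz.1, h3⟩
  have hc2 : At c' (f z) := ⟨hc'z.1, h5⟩
  have hc3 : At (chartAt (Cm n) z) z := at_chartAt (n := n) z
  have hc4 : At (chartAt (Cm p) (f z)) (f z) := at_chartAt (n := p) (f z)
  have hc5 : At E (j z) := ⟨hEz.1, h4⟩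
  have hc6 : At (chartAt (Cm n) (j z)) (j z) := at_chartAt (n := n) (j z)
  have hfz' : ContMDiffAt 𝓘(ℂ, Cm n) 𝓘(ℂ, Cm p) ω f z := hfh z
  have hjz' : ContMDiffAt 𝓘(ℂ, Cm n) 𝓘(ℂ, Cm n) ω j z := hjh z
  have hσh : ∀ b : Fin l, HolV (Cm p) (fun w => σ b.succ w / σ 0 w) (f z) := fun b =>
    (secAt_of hkpr (hσ b.succ) hkz).div_holV (secAt_of hkpr (hσ 0) hkz) hσz
  have hdf : ∀ b : Fin l, ∀ v, dif (Cm n) (fun z => σ b.succ (f z) / σ 0 (f z)) z v =
      dif (Cm p) (fun w => σ b.succ w / σ 0 w) (f z) (dM (Cm n) (Cm p) f z v) := by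
    intro b v
    have h6 : dif (Cm n) (fun z => σ b.succ (f z) / σ 0 (f z)) z =
        (dif (Cm p) (fun w => σ b.succ w / σ 0 w) (f z)).comp (dM (Cm n) (Cm p) f z) :=
      dif_comp (g := fun w => σ b.succ w / σ 0 w) (hσh b) (hfh z)
    rw [h6]
    rfl
  set D : Cm n →ₗ[ℂ] (Fin l → ℂ) := LinearMap.pi fun b : Fin l =>
    ((dif (Cm n) (fun z => σ b.succ (f z) / σ 0 (f z)) z : Cm n →L[ℂ] ℂ) : Cm n →ₗ[ℂ] ℂ) ∘ₗ
      (jacM c (chartAt (Cm n) z) z).mulVecLin with hD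
  have hDw : ∀ w b, D w b = dif (Cm n) (fun z => σ b.succ (f z) / σ 0 (f z)) z
      (jacM c (chartAt (Cm n) z) z *ᵥ w) := fun w b => rfl
  refine count (l := l) (ν := ν) (νF := νF) hn (A := A z) (B := B z) (D := D) hAz ?_ hr ?_ ?_ ?_
  · refine (Matrix.rank_mul_le_left _ _).trans ?_
    rw [Matrix.rank_transpose]
    exact hν E (j z) hc5
  · intro y
    obtain ⟨η, hη⟩ := JB.surjective_of_linearIndependent hσlz y
    obtain ⟨ξ, hξ⟩ := hsub z hz₂O η
    refine ⟨jacM (chartAt (Cm n) z) c z *ᵥ ξ, ?_⟩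
    funext b
    rw [hDw, Matrix.mulVec_mulVec, jacM_mul hc3 hc1, Matrix.one_mulVec, hdf, hξ]
    exact congrFun hη b
  · intro w hw
    funext b
    rw [hDw, hdf]
    have h6 : dM (Cm n) (Cm p) f z (jacM c (chartAt (Cm n) z) z *ᵥ w) =
        jacF f (chartAt (Cm n) z) (chartAt (Cm p) (f z)) z *ᵥ (jacM c (chartAt (Cm n) z) z *ᵥ w) :=
      mfderiv_eq_jacF hfz' _
    have h7 : dM (Cm n) (Cm p) f z (jacM c (chartAt (Cm n) z) z *ᵥ w) = 0 := by
      rw [h6, Matrix.mulVec_mulVec, ← jacF_left hfz' hc1 hc3 hc4]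
      have h8 : jacF f c (chartAt (Cm p) (f z)) z =
          jacM c' (chartAt (Cm p) (f z)) (f z) * jacF f c c' z := jacF_right hfz' hc1 hc2 hc4
      rw [h8, ← Matrix.mulVec_mulVec]
      have h9 : jacF f c c' z *ᵥ w = 0 := hw
      rw [h9, Matrix.mulVec_zero]
    rw [h7, map_zero]
    rfl
  · intro w hw
    funext b
    rw [hDw]
    refine hX 𝒢 h𝒢fin h𝒢pr m₂ KΔ hm₂ hKΔ _ _ (hpull 0) (hpull b.succ) z hz₂R
      (fun D hD => hz₂Δ D hD) ?_ (hsub z hz₂O) hσz _ ?_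
    · rintro ⟨G, hG, hGz⟩
      exact h𝒢z G hG hGz
    · have h6 : dM (Cm n) (Cm n) j z (jacM c (chartAt (Cm n) z) z *ᵥ w) =
          jacF j (chartAt (Cm n) z) (chartAt (Cm n) (j z)) z *ᵥ
            (jacM c (chartAt (Cm n) z) z *ᵥ w) :=
        mfderiv_eq_jacF hjz' _
      have h8 : jacF j c (chartAt (Cm n) (j z)) z =
          jacM E (chartAt (Cm n) (j z)) (j z) * jacF j c E z := jacF_right hjz' hc1 hc5 hc6
      rw [h6, Matrix.mulVec_mulVec, ← jacF_left hjz' hc1 hc3 hc6, h8, ← Matrix.mulVec_mulVec]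
      refine (inKer_change hθf hc5 hc6).2 ?_
      rw [inKer_iff, Matrix.mulVec_mulVec]
      exact hw

end Vale.Agent.P281.H342.U
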