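import Vale.Agent.P281.H342.U.XU
import Vale.Agent.P281.H342.U.Cnt
import Vale.Agent.P281.H498.TL.BrQF

/-! P281, theorem U (numerical dimension): assembly. -/

open scoped Manifold ContDiff Topology ComplexOrder
open Set Filter Vale.Agent.P281 Vale.Agent.P272.K Vale.Agent.P272.K.AMP Vale.Agent.P299
open Vale.Agent.P299.H882 (xi qf)
open Vale.Agent.P272.K.INT (IsClosedForm IsDensity)

set_option linter.all false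

noncomputable section

namespace Vale.Agent.P281.H342.U

open Vale.Agent.P281.H713 Vale.Agent.P281.H713.SA Vale.Agent.P281.H713.KD Vale.Agent.P281.H716
open Vale.Agent.P281.H716.KL (CorePartLG)
open Vale.Agent.P281.H167.KG (FormPartG)
open Vale.Agent.P281.H368.MFS (IsSemiPos VolLoc ConAt SmallAt GrowthPartM InKer pull)

variable {n p d : ℕ} {X Z Y F : Type}
  [TopologicalSpace X] [T2Space X] [CompactSpace X] [ConnectedSpace X]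
  [ChartedSpace (Cm n) X] [IsManifold 𝓘(ℂ, Cm n) ω X]
  [TopologicalSpace Z] [ChartedSpace (Cm n) Z] [IsManifold 𝓘(ℂ, Cm n) ω Z]
  [TopologicalSpace Y] [T2Space Y] [ConnectedSpace Y]
  [ChartedSpace (Cm p) Y] [IsManifold 𝓘(ℂ, Cm p) ω Y]
  [TopologicalSpace F] [T2Space F] [CompactSpace F] [ConnectedSpace F]
  [ChartedSpace (Cm d) F] [IsManifold 𝓘(ℂ, Cm d) ω F]

/-- the quotients of pulled back sections are constant along the kernel of `θ`, from the output of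
`coreU` -/
theorem bridgeU {M : ℕ} {χ : D.FormM n X} (hχ : IsKahler χ) {Δ : Set X → ℝ}
    (hΔ : J.IsSNC (Cm n) Δ) {j : Z → X} (hj : J.IsBigOpen (Cm n) j) {f : Z → Y}
    (hf : ContMDiff 𝓘(ℂ, Cm n) 𝓘(ℂ, Cm p) ω f)
    (hsub : ∃ z, Function.Surjective (mfderiv 𝓘(ℂ, Cm n) 𝓘(ℂ, Cm p) f z))
    {θ : D.FormM n X} {Dv : Fin M → Set X} {r : Fin M → X → ℝ} {R : Fin M → D.FormM n X} {m₀ : ℕ}
    {R' : Set X} (hinj : Function.Injective Dv) (hDv : ∀ D, Δ D ≠ 0 ↔ ∃ i, Dv i = D)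
    (hBd : IsBd Dv r R) (hm₀ : 0 < m₀)
    (hcore : ∀ (p' μ : ℕ) (K : Fin M → ℕ) (N₀ N₁ : D.FormM n X → X → ℝ) (u : X → ℝ), m₀ ∣ μ →
        (∀ i, (K i : ℝ) ≤ μ * Δ (Dv i)) → IsDecPair Dv r χ p' μ K N₀ N₁ →
        (∀ g x, IsKahler g → 0 < N₀ g x → 0 < N₁ g x →
          u x = Real.log (N₁ g x) - Real.log (N₀ g x)) →
        ∀ x ∈ R', 0 < N₀ χ x → 0 < N₁ χ x → ∀ e, At e x → ∀ v : Cm n,
          (∀ j, ∑ i, v i * θ e (e x) i j = 0) → ∑ i, xi u e (e x) i * v i = 0)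
    (𝒢 : Set (Set Y)) (hfin : 𝒢.Finite) (hpr : ∀ G ∈ 𝒢, J.IsPrime (Cm p) G)
    (m : ℕ) (K : Set X → ℕ) (hm : 0 < m) (hK : ∀ D, (K D : ℝ) ≤ m * Δ D) (σ₀ σ₁ : Y → ℂ)
    (h₀ : TL.IsPullSection (n := n) (p := p) m K 𝒢 j f σ₀)
    (h₁ : TL.IsPullSection (n := n) (p := p) m K 𝒢 j f σ₁) (z : Z) (hzR : j z ∈ R')
    (hzΔ : ∀ D, Δ D ≠ 0 → j z ∉ D) (hz𝒢 : f z ∉ ⋃₀ 𝒢)
    (hz : Function.Surjective (dM (Cm n) (Cm p) f z)) (h0 : σ₀ (f z) ≠ 0) (v : Cm n)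
    (hv : InKer (θ (chartAt (Cm n) (j z)) (chartAt (Cm n) (j z) (j z))) (dM (Cm n) (Cm n) j z v)) :
    J.dif (Cm n) (fun z => σ₁ (f z) / σ₀ (f z)) z v = 0 :=
  H498.bridgeQ n p M X Z Y χ hχ j hj f hf hsub 𝒢 hfin hpr Δ hΔ Dv hinj hDv r R hBd m₀ hm₀
    (fun x v => InKer (θ (chartAt (Cm n) x) (chartAt (Cm n) x x)) v) R'
    (fun p' μ K N₀ N₁ u hμ hK hd hu x hx h0 h1 v hv => hcore p' μ K N₀ N₁ u hμ hK hd hu x hx h0 h1 _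
      ⟨chart_mem_atlas _ _, mem_chart_source _ _⟩ v hv)
    m K hm hK σ₀ σ₁ h₀ h₁ z hzR hzΔ hz𝒢 hz h0 v hv

/-- **Theorem U**, first form: `νF + κ(f | Δ) ≤ ν`. -/
theorem mainU_of (hform : FormPartG) (hgr : GrowthPartM) (hcore : CorePartLG) (hn : n = p + d)
    {χ : D.FormM n X} (hχ : IsKahler χ)
    {Δ Δ₀ : Set X → ℝ} (hΔ : J.IsSNC (Cm n) Δ) (hΔ₀1 : ∀ D, Δ₀ D < 1)
    (hle : ∀ D, Δ₀ D ≤ Δ D) {t : ℝ} (ht : 0 < t)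
    {m : ℕ} (hm : 0 < m) {k : Set X → ℕ} (hk : ∀ D, (k D : ℝ) = m * Δ₀ D)
    {m' : ℕ} (hm' : 0 < m') {k' : Set X → ℕ}
    (hk' : ∀ D, (k' D : ℝ) = m' * (Δ₀ D + t * (Δ D - Δ₀ D)))
    {θ₀ θ₁ θ β : D.FormM n X} (hθ₀ : IsSemiPos θ₀) (hθ₁ : IsSemiPos θ₁)
    (hsum : ∀ e z, θ e z = θ₀ e z + θ₁ e z) (hβ : IsSemiPos β)
    (hβd : Dense {x | (β (chartAt (Cm n) x) (chartAt (Cm n) x x)).PosDef})
    {ν : ℕ} (hν : ∀ e x, At e x → (θ e (e x)).rank ≤ ν)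
    (hνd : Dense {x | (θ (chartAt (Cm n) x) (chartAt (Cm n) x x)).rank = ν})
    {W₀ W₁ : X → ℝ}
    (hW₀ : ∀ x, ∃ (r : ℕ) (g : Fin r → X → ℂ) (a : Fin r → ℕ),
      VolLoc n m (fun (D : Set X) z g => J.IsLocalEq (Cm n) D g z) k W₀ (fun _ _ => 0) θ₀ x g a ∧
      ∀ᶠ z in 𝓝 x, ∀ i, g i z = 0 → ConAt n (g i) β θ z ∨ SmallAt n ν (g i) θ z)
    (hW₁ : ∀ x, ∃ (r : ℕ) (g : Fin r → X → ℂ) (a : Fin r → ℕ),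
      VolLoc n m' (fun (D : Set X) z g => J.IsLocalEq (Cm n) D g z) k' W₁ (fun _ _ => 0) θ₁ x g a ∧
      ∀ᶠ z in 𝓝 x, ∀ i, g i z = 0 → ConAt n (g i) β θ z ∨ SmallAt n ν (g i) θ z)
    {j : Z → X} (hj : J.IsBigOpen (Cm n) j) {f : Z → Y}
    (hf : ContMDiff 𝓘(ℂ, Cm n) 𝓘(ℂ, Cm p) ω f)
    {i : F → Z} (hi : H713.IsSmoothFibre (Cm n) (Cm p) (Cm d) f i)
    {νF : ℕ} (hνF : ∃ t, νF ≤
      (pull (fun t => j (i t)) θ (chartAt (Cm d) t) (chartAt (Cm d) t t)).rank) :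
    ((νF : ℕ∞) : WithBot ℕ∞) + TL.kodF (n := n) (p := p) Δ j f ≤ ((ν : ℕ∞) : WithBot ℕ∞) := by
  obtain ⟨M, Dv, r, R, m₀, R', hinj, hDv, hBd, hm₀, hRo, hRd, hX⟩ := coreU hform hgr hcore hχ hΔ
    hΔ₀1 hle ht hm hk hm' hk' hθ₀ hθ₁ hsum hβ hβd hν hνd hW₀ hW₁
  obtain ⟨t₁, ht₁⟩ := id hνF
  refine absU hn hΔ hj hf hi (semiPos_add hθ₀ hθ₁ hsum) hν hνF hRo hRd ?_
  intro 𝒢 h𝒢 h𝒢p m₂ K₂ hm₂ hK₂ σ₀ σ₁ hs₀ hs₁ z hzR hzΔ hz𝒢 hz h0 v hv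
  exact bridgeU hχ hΔ hj hf ⟨i t₁, hi.submersive t₁⟩ hinj hDv hBd hm₀ hX 𝒢 h𝒢 h𝒢p m₂ K₂ hm₂ hK₂
    σ₀ σ₁ hs₀ hs₁ z hzR hzΔ hz𝒢 hz h0 v hv

end Vale.Agent.P281.H342.U
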