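import Vale.Agent.P281.H342.U.X1
import Vale.Agent.P281.H716.KL.X2
import Vale.Agent.P281.H342.MFS.Nn

/-! P281, theorem U (numerical dimension), log canonical form with two volume forms (of
`K_X + Δ₀` and of `K_X + Δ₀ + t (Δ - Δ₀)`, `Δ₀ ≤ Δ`): the `X` side. -/

open scoped Manifold ContDiff Topology ComplexOrder
open Set Filter Vale.Agent.P281 Vale.Agent.P272.K Vale.Agent.P272.K.AMP Vale.Agent.P299
open Vale.Agent.P299.H882 (xi qf)
open Vale.Agent.P272.K.INT (IsClosedForm IsDensity)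

set_option linter.all false

noncomputable section

namespace Vale.Agent.P281.H342.U

open Vale.Agent.P281.MF Vale.Agent.P281.ISO
open Vale.Agent.P281.H713 Vale.Agent.P281.H713.SA Vale.Agent.P281.H713.KD Vale.Agent.P281.H716
open Vale.Agent.P281.H716.IsSys Vale.Agent.P281.H716.KL
open Vale.Agent.P281.H167.GM (mixX mixD addF phiD ev_posDef)
open Vale.Agent.P281.H227.GMC (isClosed_addF)
open Vale.Agent.P281.H167.KG (LocAt FormPartG)
open Vale.Agent.P281.H167.LC (CorePartC)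
open Vale.Agent.P281.H368.MFS (IsSemiPos VolLoc ConAt SmallAt GrowthPartM)
open Vale.Agent.P281.H949.GM (holAt_chart tsymm)

section curv

variable {n M : ℕ} {X : Type} [TopologicalSpace X] [T2Space X] [CompactSpace X]
  [ConnectedSpace X] [ChartedSpace (Cm n) X] [IsManifold 𝓘(ℂ, Cm n) ω X]

lemma two_le_inf : (2 : WithTop ℕ∞) ≤ ∞ := by norm_cast

/-- the curvature of the metric defined by `ρ ^ l ∏ r i ^ c i` -/
theorem curvU {χ : D.FormM n X} (hχ : IsKahler χ) {Dv : Fin M → Set X} {r : Fin M → X → ℝ}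
    {R : Fin M → D.FormM n X} (hBd : IsBd Dv r R) {Λ Λ' : D.FormM n X} (hΛ' : IsClosedForm Λ')
    {m l : ℕ} (hm : 0 < m) (hl : 0 < l) {ρ : X → ℝ} (hρ0 : ∀ x, 0 ≤ ρ x)
    (hloc : ∀ x, ∃ (k : ℕ) (g : Fin k → X → ℂ) (a : Fin k → ℕ) (w : X → ℂ),
      LocAt m Λ ρ x g a (fun (_ : Fin 1) => w)) (c : Fin M → ℕ)
    (hΛ : ∀ e z, Λ' e z = Λ e z + ∑ i, (((c i : ℝ) / ((l * m : ℕ) : ℝ) : ℝ) : ℂ) • R i e z) :
    ∃ C : ℝ, 0 ≤ C ∧ ∀ δ : ℝ, 0 < δ → ∀ e x, At e x → (Λ' e (e x) +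
      ((((l * m : ℕ) : ℝ)⁻¹ : ℝ) : ℂ) •
        hess (fun y => Real.log (ρ y ^ l * ∏ i, r i y ^ c i + δ)) e (e x) +
      ((C * (δ / (ρ x ^ l * ∏ i, r i x ^ c i + δ)) : ℝ) : ℂ) • χ e (e x)).PosSemidef := by
  have hlm : 0 < l * m := Nat.mul_pos hl hm
  have hlm0 : ((l * m : ℕ) : ℝ) ≠ 0 := by exact_mod_cast hlm.ne'
  set ρ' : X → ℝ := fun y => ρ y ^ l * ∏ i, r i y ^ c i with hρ'
  have hρ'0 : ∀ x, 0 ≤ ρ' x := fun x => mul_nonneg (pow_nonneg (hρ0 x) l)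
    (Finset.prod_nonneg fun i _ => pow_nonneg (H723.KD.r_nonneg hBd i x) _)
  have key : ∀ e x, At e x → ∃ (P : Cm n → ℂ) (φ' : Cm n → ℝ), ContDiffAt ℂ ω P (e x) ∧
      ContDiffAt ℝ ∞ φ' (e x) ∧ Λ' e (e x) = cHess φ' (e x) ∧
      ∀ᶠ z in 𝓝 (e x), ρ' (e.symm z) = ‖P z‖ ^ 2 * Real.exp (-(((l * m : ℕ) : ℝ) * φ' z)) := by
    intro e x he
    obtain ⟨k, g, a, w, hL⟩ := hloc x
    obtain ⟨ψ, hψ, hev⟩ := hL.loc
    obtain ⟨gB, ψB, h1, h2, -, -, h5⟩ := hBd.loc e x he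
    have hg : ∀ i, ContDiffAt ℂ ω (fun z => g i (e.symm z)) (e x) := fun i =>
      holAt_chart he (hL.holg i).1
    have hw : ContDiffAt ℂ ω (fun z => w (e.symm z)) (e x) := holAt_chart he (hL.holH 0)
    have hψe := hψ e he
    refine ⟨fun z => (∏ i, g i (e.symm z) ^ a i) ^ l * w (e.symm z) ^ l * ∏ i, gB i z ^ c i,
      fun z => ψ (e.symm z) + ∑ i, ((c i : ℝ) / ((l * m : ℕ) : ℝ)) * ψB i z, ?_, ?_, ?_, ?_⟩
    · exact (((contDiffAt_prod fun i _ => (hg i).pow _).pow l).mul (hw.pow l)).mul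
        (contDiffAt_prod fun i _ => ((h1 i).contDiffAt).pow _)
    · exact hψe.add (ContDiffAt.sum fun i _ => contDiffAt_const.mul (h2 i))
    · have h6 : ContDiffAt ℝ 2 (fun z => ψ (e.symm z)) (e x) := hψe.of_le two_le_inf
      have h7 : ∀ i ∈ (Finset.univ : Finset (Fin M)), ContDiffAt ℝ 2
          (fun z => ((c i : ℝ) / ((l * m : ℕ) : ℝ)) * ψB i z) (e x) := fun i _ =>
        contDiffAt_const.mul ((h2 i).of_le two_le_inf)
      rw [cHess_add h6 (ContDiffAt.sum h7), cHess_sum _ h7, hΛ]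
      congr 1
      · exact (hev.self_of_nhds).1 e he
      · refine Finset.sum_congr rfl fun i _ => ?_
        rw [cHess_const_mul _ ((h2 i).of_le two_le_inf)]
        rw [(h5.self_of_nhds i).2]
    · filter_upwards [h5, (tsymm he).eventually hev] with z h6 h7
      have h8 : ρ (e.symm z) = ‖∏ i, g i (e.symm z) ^ a i‖ ^ 2 * ‖w (e.symm z)‖ ^ 2 *
          Real.exp (-m * ψ (e.symm z)) := by
        rw [h7.2, Fin.sum_univ_one]
      have h9 : ∏ i, r i (e.symm z) ^ c i = (∏ i, (‖gB i z‖ ^ 2) ^ c i) *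
          ∏ i, Real.exp (-ψB i z) ^ c i := by
        rw [← Finset.prod_mul_distrib]
        refine Finset.prod_congr rfl fun i _ => ?_
        rw [(h6 i).1, mul_pow]
      have h10 : Real.exp (-(((l * m : ℕ) : ℝ) * (ψ (e.symm z) +
          ∑ i, ((c i : ℝ) / ((l * m : ℕ) : ℝ)) * ψB i z))) =
          Real.exp (-m * ψ (e.symm z)) ^ l * ∏ i, Real.exp (-ψB i z) ^ c i := by
        have h11 : ∏ i, Real.exp (-ψB i z) ^ c i = Real.exp (∑ i, (c i : ℝ) * (-ψB i z)) := by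
          rw [Real.exp_sum]
          exact Finset.prod_congr rfl fun i _ => (Real.exp_nat_mul _ _).symm
        rw [h11, ← Real.exp_nat_mul, ← Real.exp_add]
        congr 1
        have h12 : ((l * m : ℕ) : ℝ) * ∑ i, ((c i : ℝ) / ((l * m : ℕ) : ℝ)) * ψB i z =
            ∑ i, (c i : ℝ) * ψB i z := by
          rw [Finset.mul_sum]
          refine Finset.sum_congr rfl fun i _ => ?_
          rw [← mul_assoc, mul_div_cancel₀ _ hlm0]
        rw [mul_add, h12]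
        simp only [mul_neg, Finset.sum_neg_distrib]
        push_cast
        ring
      have h11 : ‖(∏ i, g i (e.symm z) ^ a i) ^ l * w (e.symm z) ^ l * ∏ i, gB i z ^ c i‖ ^ 2 =
          (‖∏ i, g i (e.symm z) ^ a i‖ ^ 2 * ‖w (e.symm z)‖ ^ 2) ^ l *
            ∏ i, (‖gB i z‖ ^ 2) ^ c i := by
        rw [norm_mul, norm_mul, norm_pow, norm_pow, mul_pow, mul_pow, mul_pow]
        congr 1
        · ring
        · rw [norm_prod, ← Finset.prod_pow]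
          refine Finset.prod_congr rfl fun i _ => ?_
          rw [norm_pow]
          ring
      show ρ (e.symm z) ^ l * ∏ i, r i (e.symm z) ^ c i = _
      rw [h10, h11, h9, h8]
      ring
  obtain ⟨C, hC0, hC⟩ := Vale.Agent.P272.K.AMP.Main.exists_comparison'
      (b := fun e z => -Λ' e z) hχ.toIsHermitian
      (fun e x h i j => (hΛ'.smooth e x h i j).neg) (fun e e' x h h' => by
        show -Λ' e (e x) = _ * -Λ' e' (e' x) * _
        have h1 : Λ' e (e x) = (jacM e e' x).transpose * Λ' e' (e' x) *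
          (jacM e e' x).map (starRingEnd ℂ) := hΛ'.form e e' x h h'
        rw [h1, Matrix.mul_neg, Matrix.neg_mul]) (fun e x h => by
        obtain ⟨P, φ', -, h2, h3, -⟩ := key e x h
        show (-Λ' e (e x)).IsHermitian
        rw [h3]
        exact (C2.cHess_isHermitian (h2.of_le two_le_inf)).neg)
  refine ⟨C, hC0.le, fun δ hδ e x he => ?_⟩
  obtain ⟨P, φ', h1, h2, h3, h4⟩ := key e x he
  have h5 := H342.MFS.curv_at (N := 1) (m := l * m) (L := Λ' e (e x)) (c := fun z _ => P z)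
    (φ := φ') (R := fun z => ρ' (e.symm z)) (z := e x) (contDiffAt_pi.2 fun _ => h1) h2 h3 (by
      filter_upwards [h4] with z hz
      rw [hz]
      congr 1
      simp [Vale.Agent.P299.H223.nsq]) hlm hδ
  rw [he.left_inv] at h5
  have hκ : 0 ≤ δ / (ρ' x + δ) := (div_pos hδ (add_pos_of_nonneg_of_pos (hρ'0 x) hδ)).le
  have h6 := (hC e x he).smul
    (show (0 : ℂ) ≤ ((δ / (ρ' x + δ) : ℝ) : ℂ) by exact_mod_cast hκ)
  have h7 := h5.add h6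
  have h8 : Λ' e (e x) + ((((l * m : ℕ) : ℝ)⁻¹ : ℝ) : ℂ) •
      hess (fun y => Real.log (ρ' y + δ)) e (e x) +
      ((C * (δ / (ρ' x + δ)) : ℝ) : ℂ) • χ e (e x) =
      Λ' e (e x) + ((((l * m : ℕ) : ℝ)⁻¹ : ℝ) : ℂ) •
        cHess (fun y => Real.log (ρ' (e.symm y) + δ)) (e x) -
        ((δ / (ρ' x + δ) : ℝ) : ℂ) • Λ' e (e x) +
        ((δ / (ρ' x + δ) : ℝ) : ℂ) • ((C : ℂ) • χ e (e x) - -Λ' e (e x)) := by
    have h9 : ((C * (δ / (ρ' x + δ)) : ℝ) : ℂ) = ((δ / (ρ' x + δ) : ℝ) : ℂ) * (C : ℂ) := by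
      rw [← Complex.ofReal_mul, mul_comm]
    rw [h9, smul_sub, smul_neg, smul_smul]
    show _ + _ • cHess (fun y => Real.log (ρ' (e.symm y) + δ)) (e x) + _ = _
    abel
  rw [h8]
  exact h7

/-- `metU`, with the local form of `ρ` -/
theorem metU' (hform : FormPartG) (hgr : GrowthPartM) {χ : D.FormM n X} (hχ : IsKahler χ)
    {T : Finset (Set X)}
    (hsX : IsSys n (fun (D : Set X) z g => J.IsLocalEq (Cm n) D g z) T)
    {Dv : Fin M → Set X} (hprod : ∀ f : Set X → ℂ, ∏ i, f (Dv i) = ∏ D ∈ T, f D)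
    (hDv : ∀ i, Dv i ∈ T) {ψ : Fin M → X → X → ℝ}
    (hψ : ∀ i, Vale.Agent.P285.TM.Wt (H342.KD.OD hsX (Dv i) (hDv i)) (ψ i))
    {φ : Chart n X → Cm n → ℝ} (hφ : IsCanonicalMetric φ)
    {r : Fin M → X → ℝ}
    (hBd : IsBd Dv r fun i => Vale.Agent.P285.TM.cv (H342.KD.OD hsX (Dv i) (hDv i)) (ψ i))
    {m : ℕ} (hm : 0 < m) {k : Set X → ℕ} (hksupp : ∀ D, k D ≠ 0 → D ∈ T) {dl : Fin M → ℝ}
    (hk : ∀ i, (k (Dv i) : ℝ) = m * dl i)
    {η θ' θ β : D.FormM n X} (hη : IsSemiPos η) (hθ' : IsSemiPos θ') (hθ : IsSemiPos θ)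
    (hsum : ∀ e z, θ e z = η e z + θ' e z) (hβ : IsSemiPos β)
    {ν : ℕ} (hν : ∀ e x, At e x → (θ e (e x)).rank ≤ ν) {W : X → ℝ}
    (hW : ∀ x, ∃ (r : ℕ) (g : Fin r → X → ℂ) (a : Fin r → ℕ),
      VolLoc n m (fun (D : Set X) z g => J.IsLocalEq (Cm n) D g z) k W (fun _ _ => 0) η x g a ∧
      ∀ᶠ z in 𝓝 x, ∀ i, g i z = 0 → ConAt n (g i) β θ z ∨ SmallAt n ν (g i) θ z) :
    ∃ (ρ : X → ℝ) (C C₁ : ℝ), SmoothFn (n := n) ρ ∧ (∀ x, 0 ≤ ρ x) ∧ Dense {x | 0 < ρ x} ∧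
      (∀ δ : ℝ, 0 < δ → ∀ e x, At e x → (clsK φ dl
        (fun i => Vale.Agent.P285.TM.cv (H342.KD.OD hsX (Dv i) (hDv i)) (ψ i)) e (e x) +
        (((m : ℝ)⁻¹ : ℝ) : ℂ) • hess (fun y => Real.log (ρ y + δ)) e (e x) +
        ((C * (δ / (ρ x + δ)) : ℝ) : ℂ) • χ e (e x)).PosSemidef) ∧
      (∀ s : ℝ, 1 ≤ s → mixX (addF β s θ) (clsK φ dl
        (fun i => Vale.Agent.P285.TM.cv (H342.KD.OD hsX (Dv i) (hDv i)) (ψ i))) ≤
          C₁ * s ^ ν / s) ∧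
      ∀ x, ∃ (k : ℕ) (g : Fin k → X → ℂ) (a : Fin k → ℕ) (w : X → ℂ),
        LocAt m (fun e z => clsK φ dl (fun i => Vale.Agent.P285.TM.cv
          (H342.KD.OD hsX (Dv i) (hDv i)) (ψ i)) e z - η e z) ρ x g a (fun (_ : Fin 1) => w) := by
  classical
  set R : Fin M → D.FormM n X :=
    fun i => Vale.Agent.P285.TM.cv (H342.KD.OD hsX (Dv i) (hDv i)) (ψ i) with hR
  set ρ : X → ℝ := H342.MFS.rhoW hsX Dv ψ φ k m W with hρdef
  set Λ : D.FormM n X := fun e z => clsK φ dl R e z - (η e z - 0) with hΛdef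
  have hηc := hη.isClosedForm
  have hθ'c := hθ'.isClosedForm
  have hθc := hθ.isClosedForm
  have hβc := hβ.isClosedForm
  have hcls : IsClosedForm (clsK φ dl R) := H342.KG.closed_cls hBd.closed hφ
  have hΛ : IsClosedForm Λ := by
    have h1 : Λ = addF (clsK φ dl R) (-1) η := by
      funext e z
      show clsK φ dl R e z - (η e z - 0) = clsK φ dl R e z + (((-1 : ℝ) : ℝ) : ℂ) • η e z
      rw [Complex.ofReal_neg, Complex.ofReal_one, neg_one_smul, sub_zero]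
      abel
    rw [h1]
    exact isClosed_addF hcls hηc (-1)
  have hloc : ∀ x, ∃ (r : ℕ) (g : Fin r → X → ℂ) (a : Fin r → ℕ) (w : X → ℂ),
      LocAt m Λ ρ x g a (fun (_ : Fin 1) => w) ∧
      ∀ᶠ z in 𝓝 x, ∀ i, g i z = 0 → ConAt n (g i) β θ z ∨ SmallAt n ν (g i) θ z := by
    intro x
    obtain ⟨r, g, a, hV, hD⟩ := hW x
    obtain ⟨T', q, u, h1, h2, h3, h4⟩ := hV.loc
    obtain ⟨w, -, -, hL⟩ := H342.MFS.locW (dl := dl) (B := fun e z => η e z - 0) hsX hprod hDv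
      hψ hφ hksupp hk h1 h2 hV.holg h3 h4
    exact ⟨r, g, a, w, hL, hD⟩
  obtain ⟨C, -, hC0, hρs, hρ0, hρd, -, -, hcurv, -⟩ := hform n X χ hχ m hm Λ hΛ ρ fun x => by
    obtain ⟨r, g, a, w, hL, -⟩ := hloc x
    exact ⟨r, 1, g, a, _, hL⟩
  obtain ⟨C₁, hC₁⟩ := hgr n X χ hχ m hm Λ hΛ ρ hρs hρ0 β θ hβ hθ ν hν hloc
  refine ⟨ρ, C, 2 * C₁, hρs, hρ0, hρd, ?_, ?_, ?_⟩
  · intro δ hδ e x hx
    have h1 := hcurv δ hδ e x hx
    have h2 := h1.add (hη.posSemidef e x hx)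
    have h6 : Λ e (e x) = clsK φ dl R e (e x) - (η e (e x) - 0) := rfl
    have h7 : clsK φ dl R e (e x) + (((m : ℝ)⁻¹ : ℝ) : ℂ) •
        hess (fun y => Real.log (ρ y + δ)) e (e x) +
        ((C * (δ / (ρ x + δ)) : ℝ) : ℂ) • χ e (e x) =
        Λ e (e x) + (((m : ℝ)⁻¹ : ℝ) : ℂ) • hess (fun y => Real.log (ρ y + δ)) e (e x) +
          ((C * (δ / (ρ x + δ)) : ℝ) : ℂ) • χ e (e x) + η e (e x) := by
      rw [h6]
      abel
    rw [h7]
    exact h2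
  · intro s hs
    obtain ⟨h1, h2⟩ := hC₁ s hs
    have hA := isClosed_addF hβc hθc s
    have hs0 : (0 : ℝ) ≤ s := zero_le_one.trans hs
    have hA0 : ∀ e x, At e x → (addF β s θ e (e x)).PosSemidef := fun e x he =>
      (hβ.posSemidef e x he).add ((hθ.posSemidef e x he).smul (by exact_mod_cast hs0))
    have h3 : mixX (addF β s θ) (clsK φ dl R) =
        1 * mixX (addF β s θ) Λ + 1 * mixX (addF β s θ) η := by
      refine mixX_comb hA hΛ hηc fun e x he => ?_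
      show clsK φ dl R e (e x) = ((1 : ℝ) : ℂ) • (clsK φ dl R e (e x) - (η e (e x) - 0)) +
        ((1 : ℝ) : ℂ) • η e (e x)
      rw [Complex.ofReal_one, one_smul, one_smul]
      abel
    have h4 : mixX (addF β s θ) θ =
        1 * mixX (addF β s θ) η + 1 * mixX (addF β s θ) θ' := by
      refine mixX_comb hA hηc hθ'c fun e x he => ?_
      rw [Complex.ofReal_one, one_smul, one_smul, hsum]
    have h5 : 0 ≤ mixX (addF β s θ) θ' := mixX_nn hA0 hθ'.posSemidef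
    rw [h3]
    calc 1 * mixX (addF β s θ) Λ + 1 * mixX (addF β s θ) η ≤ C₁ * s ^ ν / s + C₁ * s ^ ν / s := by
          linarith
      _ = 2 * C₁ * s ^ ν / s := by ring
  · intro x
    obtain ⟨r, g, a, w, hL, -⟩ := hloc x
    have h1 : Λ = fun e z => clsK φ dl R e z - η e z := by
      funext e z
      show clsK φ dl R e z - (η e z - 0) = _
      rw [sub_zero]
    rw [h1] at hL
    exact ⟨r, g, a, w, hL⟩

end curv

/-- **the `X` side**, two volume forms, coefficients `≤ 1` -/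
theorem coreU2 (hform : FormPartG) (hgr : GrowthPartM) (hnull : NullPart') (hcore : CorePartC)
    {n : ℕ} {X : Type}
    [TopologicalSpace X] [T2Space X] [CompactSpace X] [ConnectedSpace X]
    [ChartedSpace (Cm n) X] [IsManifold 𝓘(ℂ, Cm n) ω X]
    {χ : D.FormM n X} (hχ : IsKahler χ)
    {Δ Δ₀ : Set X → ℝ} (hΔ : J.IsSNC (Cm n) Δ)
    (hle : ∀ D, Δ₀ D ≤ Δ D) {t : ℝ} (ht : 0 < t)
    {m : ℕ} (hm : 0 < m) {k : Set X → ℕ} (hk : ∀ D, (k D : ℝ) = m * Δ₀ D)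
    {m' : ℕ} (hm' : 0 < m') {k' : Set X → ℕ}
    (hk' : ∀ D, (k' D : ℝ) = m' * (Δ₀ D + t * (Δ D - Δ₀ D)))
    {θ₀ θ₁ θ β : D.FormM n X} (hθ₀ : IsSemiPos θ₀) (hθ₁ : IsSemiPos θ₁)
    (hsum : ∀ e z, θ e z = θ₀ e z + θ₁ e z) (hβ : IsSemiPos β)
    (hβd : Dense {x | (β (chartAt (Cm n) x) (chartAt (Cm n) x x)).PosDef})
    {ν : ℕ} (hν : ∀ e x, At e x → (θ e (e x)).rank ≤ ν)
    (hνd : Dense {x | (θ (chartAt (Cm n) x) (chartAt (Cm n) x x)).rank = ν})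
    {W₀ W₁ : X → ℝ}
    (hW₀ : ∀ x, ∃ (r : ℕ) (g : Fin r → X → ℂ) (a : Fin r → ℕ),
      VolLoc n m (fun (D : Set X) z g => J.IsLocalEq (Cm n) D g z) k W₀ (fun _ _ => 0) θ₀ x g a ∧
      ∀ᶠ z in 𝓝 x, ∀ i, g i z = 0 → ConAt n (g i) β θ z ∨ SmallAt n ν (g i) θ z)
    (hW₁ : ∀ x, ∃ (r : ℕ) (g : Fin r → X → ℂ) (a : Fin r → ℕ),
      VolLoc n m' (fun (D : Set X) z g => J.IsLocalEq (Cm n) D g z) k' W₁ (fun _ _ => 0) θ₁ x g a ∧
      ∀ᶠ z in 𝓝 x, ∀ i, g i z = 0 → ConAt n (g i) β θ z ∨ SmallAt n ν (g i) θ z) :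
    ∃ (M : ℕ) (Dv : Fin M → Set X) (r : Fin M → X → ℝ) (R : Fin M → D.FormM n X)
      (R' : Set X), Function.Injective Dv ∧ (∀ D, Δ D ≠ 0 ↔ ∃ i, Dv i = D) ∧ IsBd Dv r R ∧
      IsOpen R' ∧ Dense R' ∧
      ∀ (p' μ : ℕ) (K : Fin M → ℕ) (N₀ N₁ : D.FormM n X → X → ℝ) (u : X → ℝ),
        (∀ i, (K i : ℝ) ≤ μ * Δ (Dv i)) → IsDecPair Dv r χ p' μ K N₀ N₁ →
        IsHolNorm (n := n) (fun x => N₀ χ x + N₀ χ x) →
        (∀ g x, IsKahler g → 0 < N₀ g x → 0 < N₁ g x →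
          u x = Real.log (N₁ g x) - Real.log (N₀ g x)) →
        ∀ x ∈ R', 0 < N₀ χ x → 0 < N₁ χ x → ∀ e, At e x → ∀ v : Cm n,
          (∀ j, ∑ i, v i * θ e (e x) i j = 0) → ∑ i, xi u e (e x) i * v i = 0 := by
  classical
  have hθ : IsSemiPos θ := semiPos_add hθ₀ hθ₁ hsum
  have hθc := hθ.isClosedForm
  have hβc := hβ.isClosedForm
  set T : Finset (Set X) := hΔ.1.toFinset with hTdef
  have hTΔ : ∀ D, D ∈ T ↔ Δ D ≠ 0 := fun D => Set.Finite.mem_toFinset _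
  have hTex : ∀ D ∈ T, ∀ x, ∃ g, J.IsLocalEq (Cm n) D g x := fun D hD =>
    (hΔ.2.1 D ((hTΔ D).1 hD)).2.1
  have hsX : IsSys n (fun (D : Set X) z g => J.IsLocalEq (Cm n) D g z) T :=
    H342.KD.isSys_eqD hTex
  have hm0 : (0 : ℝ) < m := by exact_mod_cast hm
  have hm'0 : (0 : ℝ) < m' := by exact_mod_cast hm'
  have hΔ₀0 : ∀ D, 0 ≤ Δ₀ D := by
    intro D
    have h1 := hk D
    have h2 : (0 : ℝ) ≤ m * Δ₀ D := h1 ▸ Nat.cast_nonneg _
    exact nonneg_of_mul_nonneg_right h2 hm0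
  have hΔ01 : ∀ D, 0 ≤ Δ D ∧ Δ D ≤ 1 := by
    intro D
    obtain ⟨q, hq, hq0, hq1⟩ := hΔ.2.2.1 D
    rw [hq]
    exact ⟨by exact_mod_cast hq0, by exact_mod_cast hq1⟩
  set Δ₁ : Set X → ℝ := fun D => Δ₀ D + t * (Δ D - Δ₀ D) with hΔ₁d
  have hzero : ∀ D, Δ D = 0 → Δ₀ D = 0 := fun D hD => le_antisymm (hD ▸ hle D) (hΔ₀0 D)
  have hksupp : ∀ D, k D ≠ 0 → D ∈ T := by
    intro D hD
    refine (hTΔ D).2 fun h0 => hD ?_
    have h1 := hk D
    rw [hzero D h0, mul_zero] at h1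
    exact_mod_cast h1
  have hk'supp : ∀ D, k' D ≠ 0 → D ∈ T := by
    intro D hD
    refine (hTΔ D).2 fun h0 => hD ?_
    have h1 := hk' D
    rw [hzero D h0, h0, sub_self, mul_zero, add_zero, mul_zero] at h1
    exact_mod_cast h1
  -- the divisors and the metrics
  obtain ⟨M, Dv, hinj, hDvT⟩ := exists_enum' T
  have hDv : ∀ i, Dv i ∈ T := fun i => (hDvT _).2 ⟨i, rfl⟩
  have hprod : ∀ f : Set X → ℂ, ∏ i, f (Dv i) = ∏ D ∈ T, f D := by
    intro f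
    have h1 : T = Finset.univ.image Dv := by
      ext D
      rw [hDvT, Finset.mem_image]
      simp
    rw [h1, Finset.prod_image fun i _ i' _ hii => hinj hii]
  choose ψ hψ hψle using fun i => H342.KD.exists_wt_le hsX (hDv i)
  have hφ := AMP.Main.isCanonical_logdet hχ.toIsHermitian
  set φ : Chart n X → Cm n → ℝ := fun e z => Real.log (χ e z).det.re with hφd
  set r : Fin M → X → ℝ := fun i => H342.KD.rr hsX (Dv i) (ψ i) with hrd
  set R : Fin M → D.FormM n X :=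
    fun i => Vale.Agent.P285.TM.cv (H342.KD.OD hsX (Dv i) (hDv i)) (ψ i) with hRd
  have hBd : IsBd Dv r R := by
    refine H342.KD.isBd hsX hinj hDv hψ hψle ?_
    intro x g hg c
    obtain ⟨ξ, hξ⟩ := hΔ.2.2.2 x g (fun D hD hx => hg D ((hTΔ D).2 hD) hx)
      (fun D => c ⟨D.1, (hTΔ D.1).2 D.2.1, D.2.2⟩)
    exact ⟨ξ, funext fun D => congrFun hξ ⟨D.1, (hTΔ D.1).1 D.2.1, D.2.2⟩⟩
  obtain ⟨ρ₀, C, C₁, hρ₀s, hρ₀0, hρ₀d, hcurv₀, hg₀, hl₀⟩ := metU' hform hgr hχ hsX hprod hDv hψ hφ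
    hBd hm hksupp (dl := fun i => Δ₀ (Dv i)) (fun i => hk (Dv i)) hθ₀ hθ₁ hθ hsum hβ hν hW₀
  obtain ⟨ρ₁, C', C₁', hρ₁s, hρ₁0, hρ₁d, hcurv₁, hg₁, -⟩ := metU' hform hgr hχ hsX hprod hDv hψ hφ
    hBd hm' hk'supp (dl := fun i => Δ₁ (Dv i)) (fun i => hk' (Dv i)) hθ₁ hθ₀ hθ
    (fun e z => (hsum e z).trans (add_comm _ _)) hβ hν hW₁
  set Λ₀ : D.FormM n X := clsK φ (fun i => Δ₀ (Dv i)) R with hΛ₀d
  set Λ₁ : D.FormM n X := clsK φ (fun i => Δ₁ (Dv i)) R with hΛ₁d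
  set Λ : D.FormM n X := clsK φ (fun i => Δ (Dv i)) R with hΛd
  have hΛ₀ : IsClosedForm Λ₀ := H342.KG.closed_cls hBd.closed hφ
  have hΛ₁ : IsClosedForm Λ₁ := H342.KG.closed_cls hBd.closed hφ
  have hΛc : IsClosedForm Λ := H342.KG.closed_cls hBd.closed hφ
  -- the growth of `K_X + Δ`
  have hnl : ∀ e ∈ atlas (Cm n) X,
      MeasureTheory.volume {z | z ∈ e.target ∧ ρ₀ (e.symm z) = 0} = 0 :=
    hnull n X m _ ρ₀ fun x => by
      obtain ⟨k, g, a, w, h1⟩ := hl₀ x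
      exact ⟨k, 1, g, a, _, h1⟩
  have hgrow : ∀ s : ℝ, 1 ≤ s → mixX (addF β s θ) Λ ≤
      (t⁻¹ * C₁' + |1 - t⁻¹| * C₁) * s ^ ν / s := by
    intro s hs
    have hs0 : (0 : ℝ) ≤ s := zero_le_one.trans hs
    have hA := isClosed_addF hβc hθc s
    have hA0 : ∀ e x, At e x → (addF β s θ e (e x)).PosSemidef := fun e x he =>
      (hβ.posSemidef e x he).add ((hθ.posSemidef e x he).smul (by exact_mod_cast hs0))
    haveI : Nonempty X := inferInstance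
    have h2 : 0 ≤ mixX (addF β s θ) Λ₀ :=
      H776.KL.mix_nonneg hχ hΛ₀ m hρ₀s hρ₀0 hnl C hcurv₀ hA hA0
    have h3 := mixX_comb (B'' := Λ) (a := t⁻¹) (a' := 1 - t⁻¹) hA hΛ₁ hΛ₀ (fun e x _ => by
      simp only [hΛd, hΛ₀d, hΛ₁d, clsK, smul_add, Finset.smul_sum, smul_smul, hΔ₁d]
      have h4 : cHess (φ e) (e x) = ((t⁻¹ : ℝ) : ℂ) • cHess (φ e) (e x) +
          ((1 - t⁻¹ : ℝ) : ℂ) • cHess (φ e) (e x) := by
        rw [← add_smul]
        have : ((t⁻¹ : ℝ) : ℂ) + ((1 - t⁻¹ : ℝ) : ℂ) = 1 := by push_cast; ring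
        rw [this, one_smul]
      have h5 : ∑ i, ((Δ (Dv i) : ℝ) : ℂ) • R i e (e x) =
          ∑ i, (((t⁻¹ : ℝ) : ℂ) * ((Δ₀ (Dv i) + t * (Δ (Dv i) - Δ₀ (Dv i)) : ℝ) : ℂ)) •
            R i e (e x) +
          ∑ i, (((1 - t⁻¹ : ℝ) : ℂ) * ((Δ₀ (Dv i) : ℝ) : ℂ)) • R i e (e x) := by
        rw [← Finset.sum_add_distrib]
        refine Finset.sum_congr rfl fun i _ => ?_
        rw [← add_smul]
        congr 1
        have ht0 : (t : ℂ) ≠ 0 := by exact_mod_cast ht.ne'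
        push_cast
        field_simp
        ring
      rw [h5]
      nth_rewrite 1 [h4]
      abel)
    have h6 := hg₀ s hs
    have h7 := hg₁ s hs
    have h8 : (1 - t⁻¹) * mixX (addF β s θ) Λ₀ ≤ |1 - t⁻¹| * (C₁ * s ^ ν / s) :=
      (mul_le_mul_of_nonneg_right (le_abs_self _) h2).trans
        (mul_le_mul_of_nonneg_left h6 (abs_nonneg _))
    have h9 : t⁻¹ * mixX (addF β s θ) Λ₁ ≤ t⁻¹ * (C₁' * s ^ ν / s) :=
      mul_le_mul_of_nonneg_left h7 (inv_nonneg.2 ht.le)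
    rw [h3]
    refine (add_le_add h9 h8).trans (le_of_eq ?_)
    ring
  -- the volume form
  obtain ⟨l, hl, K₁, hK₁, -⟩ := exists_denominator (JB.snc hΔ)
  set c : Fin M → ℕ := fun i => m * K₁ (Dv i) - l * k (Dv i) with hcd
  have hc : ∀ i, (c i : ℝ) = ((l * m : ℕ) : ℝ) * (Δ (Dv i) - Δ₀ (Dv i)) := by
    intro i
    have h2 : l * k (Dv i) ≤ m * K₁ (Dv i) := by
      have h3 : ((l * k (Dv i) : ℕ) : ℝ) ≤ ((m * K₁ (Dv i) : ℕ) : ℝ) := by
        push_cast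
        rw [hk, hK₁]
        have h4 := mul_le_mul_of_nonneg_left (hle (Dv i)) (by positivity : (0 : ℝ) ≤ l * m)
        calc (l : ℝ) * (m * Δ₀ (Dv i)) = l * m * Δ₀ (Dv i) := by ring
          _ ≤ l * m * Δ (Dv i) := h4
          _ = m * (l * Δ (Dv i)) := by ring
      exact_mod_cast h3
    simp only [hcd]
    push_cast [Nat.cast_sub h2]
    rw [hk, hK₁]
    ring
  have hlm : 0 < l * m := Nat.mul_pos hl hm
  have hlm0 : ((l * m : ℕ) : ℝ) ≠ 0 := by exact_mod_cast hlm.ne'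
  have hΛη : IsClosedForm (fun e z => Λ e z - θ₀ e z : D.FormM n X) := by
    have h1 : (fun e z => Λ e z - θ₀ e z : D.FormM n X) = addF Λ (-1) θ₀ := by
      funext e z
      show Λ e z - θ₀ e z = Λ e z + (((-1 : ℝ) : ℝ) : ℂ) • θ₀ e z
      rw [Complex.ofReal_neg, Complex.ofReal_one, neg_one_smul]
      abel
    rw [h1]
    exact isClosed_addF hΛc hθ₀.isClosedForm (-1)
  obtain ⟨C₂, hC₂0, hcurv⟩ := curvU hχ hBd (Λ := fun e z => Λ₀ e z - θ₀ e z) hΛη hm hl hρ₀0 hl₀ c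
    (fun e z => by
      show Λ e z - θ₀ e z = Λ₀ e z - θ₀ e z + _
      have h1 : Λ e z = Λ₀ e z + ∑ i, (((c i : ℝ) / ((l * m : ℕ) : ℝ) : ℝ) : ℂ) • R i e z := by
        simp only [hΛd, hΛ₀d, clsK]
        rw [add_assoc, ← Finset.sum_add_distrib]
        congr 1
        refine Finset.sum_congr rfl fun i _ => ?_
        rw [← add_smul, hc i, mul_div_cancel_left₀ _ hlm0]
        congr 1
        push_cast
        ring
      rw [h1]
      abel)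
  set ρ : X → ℝ := fun y => ρ₀ y ^ l * ∏ i, r i y ^ c i with hρd
  have hρ0 : ∀ x, 0 ≤ ρ x := fun x => mul_nonneg (pow_nonneg (hρ₀0 x) l)
    (Finset.prod_nonneg fun i _ => pow_nonneg (H723.KD.r_nonneg hBd i x) _)
  have hρs : SmoothFn (n := n) ρ := by
    intro e x he
    have h1 := hρ₀s e x he
    have h2 : ∀ i, ContDiffAt ℝ ∞ (fun z => r i (e.symm z)) (e x) := fun i =>
      bd_smooth' hBd i e x he
    exact (h1.pow l).mul (contDiffAt_prod fun i _ => (h2 i).pow _)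
  have hcurvΛ : ∀ δ : ℝ, 0 < δ → ∀ e x, At e x → (Λ e (e x) +
      ((((l * m : ℕ) : ℝ)⁻¹ : ℝ) : ℂ) • hess (fun y => Real.log (ρ y + δ)) e (e x) +
      ((C₂ * (δ / (ρ x + δ)) : ℝ) : ℂ) • χ e (e x)).PosSemidef := by
    intro δ hδ e x he
    have h1 := (hcurv δ hδ e x he).add (hθ₀.posSemidef e x he)
    have h2 : Λ e (e x) + ((((l * m : ℕ) : ℝ)⁻¹ : ℝ) : ℂ) •
        hess (fun y => Real.log (ρ y + δ)) e (e x) +
        ((C₂ * (δ / (ρ x + δ)) : ℝ) : ℂ) • χ e (e x) =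
        Λ e (e x) - θ₀ e (e x) + ((((l * m : ℕ) : ℝ)⁻¹ : ℝ) : ℂ) •
        hess (fun y => Real.log (ρ y + δ)) e (e x) +
        ((C₂ * (δ / (ρ x + δ)) : ℝ) : ℂ) • χ e (e x) + θ₀ e (e x) := by abel
    rw [h2]
    exact h1
  -- the good points
  have hDpr : ∀ D, Δ D ≠ 0 → IsPrimeDivisor (Cm n) D := fun D hD => (JB.snc hΔ).prime D hD
  have hoff := dense_compl_finite (X := X) hΔ.1 (fun D hD => (hDpr D hD).1) (fun D hD => by
    rw [dense_iff_inter_open]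
    intro U hU hUne
    obtain ⟨x, hxU, hxD⟩ := IsLocalEq.exists_notMem (hDpr D hD).2.1 hU hUne
    exact ⟨x, hxU, hxD⟩)
  obtain ⟨ho₄, ho₅, hposc, hrkc⟩ := open_good hβ hθ hν
  set R₁ : Set X := {x | ∀ D ∈ {D | Δ D ≠ 0}, x ∉ D} with hR₁
  set R₂ : Set X := {x | 0 < ρ₀ x} with hR₂
  set R₄ : Set X := {x | (β (chartAt (Cm n) x) (chartAt (Cm n) x x)).PosDef} with hR₄
  set R₅ : Set X := {x | (θ (chartAt (Cm n) x) (chartAt (Cm n) x x)).rank = ν} with hR₅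
  have ho₂ : IsOpen R₂ := isOpen_lt continuous_const (INT.SmoothFn.continuous hρ₀s)
  have hat : ∀ x : X, At (chartAt (Cm n) x) x := fun x =>
    ⟨chart_mem_atlas _ _, mem_chart_source _ _⟩
  have hRo : IsOpen (R₁ ∩ R₂ ∩ R₄ ∩ R₅) := ((hoff.1.inter ho₂).inter ho₄).inter ho₅
  have hRd : Dense (R₁ ∩ R₂ ∩ R₄ ∩ R₅) :=
    ((hoff.2.inter_of_isOpen_left hρ₀d hoff.1).inter_of_isOpen_left hβd
      (hoff.1.inter ho₂)).inter_of_isOpen_left hνd ((hoff.1.inter ho₂).inter ho₄)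
  refine ⟨M, Dv, r, R, R₁ ∩ R₂ ∩ R₄ ∩ R₅, hinj,
    (fun D => (hTΔ D).symm.trans (hDvT D)), hBd, hRo, hRd, ?_⟩
  intro p' μ K N₀ N₁ u hK hdec hhol hu x hx h0 h1 e he v hv
  obtain ⟨⟨⟨hxo, hx0⟩, hx4⟩, hx5⟩ := hx
  have hrx : ∀ i, 0 < r i x := fun i => bd_pos' hBd fun h => hxo (Dv i) ((hTΔ _).1 (hDv i)) h
  have hρx : 0 < ρ x := mul_pos (pow_pos hx0 l) (Finset.prod_pos fun i _ => pow_pos (hrx i) _)
  exact hcore n M X χ hχ φ hφ (l * m) hlm ρ hρs hρ0 Dv r R hBd (fun i => Δ (Dv i))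
    (fun i => hΔ01 (Dv i)) C₂ (curvK_of hφ hρs hρ0 hcurvΛ) θ β hθc hβc hθ.posSemidef hβ.posSemidef
    ν _ ((eventually_ge_atTop 1).frequently.mono fun s hs => hgrow s hs) p' μ K hK N₀ N₁ hdec hhol
    u hu e x he h0 h1 hρx hrx (hposc e _ x he (hat x) hx4) ((hrkc e _ x he (hat x)).trans hx5) v hv

end Vale.Agent.P281.H342.U
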