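import Vale.Agent.P281.H342.U.BrC
import Vale.Agent.P281.H723.FL.NumI
import Vale.Agent.P281.H716.LC.Fin
import Vale.Agent.P281.H368.MFS.Gr2

/-! P281, theorem U, log canonical, one volume form: closed version. -/

open scoped Manifold ContDiff Topology ComplexOrder
open Set Filter Vale.Agent.P272.K

noncomputable section

namespace Vale.Agent.P281.H342.UC

open Vale.Agent.P281

/-- **Theorem U**, first form, log canonical, one volume form. -/
theorem numPart : H723.FL.NumPart := by
  intro n p d hn X Z Y F _ _ _ _ _ _ _ _ _ _ _ _ _ _ _ _ _ _ _ _ χ hχ Δ hΔ m hm k hk θ β hθ hβ hβd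
    ν hν hνd W hW j hj f hf i hi νF hνF
  exact mainU1_of H342.KG.formPartG H368.MFS.growthPartM H716.LC.corePartC hn hχ hΔ hm hk hθ hβ hβd
    hν hνd hW hj hf hi hνF

end Vale.Agent.P281.H342.UC
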