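import Vale.Agent.P281.H342.U.XU
import Vale.Agent.P281.H167.LC.Iface

/-! P281, theorem U (numerical dimension), log canonical form with one volume form: the `X` side. -/

open scoped Manifold ContDiff Topology ComplexOrder
open Set Filter Vale.Agent.P281 Vale.Agent.P272.K Vale.Agent.P272.K.AMP Vale.Agent.P299
open Vale.Agent.P299.H882 (xi qf)
open Vale.Agent.P272.K.INT (IsClosedForm IsDensity)

set_option linter.all false

noncomputable section

namespace Vale.Agent.P281.H342.U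

open Vale.Agent.P281.MF Vale.Agent.P281.ISO
open Vale.Agent.P281.H713 Vale.Agent.P281.H713.SA Vale.Agent.P281.H713.KD Vale.Agent.P281.H716
open Vale.Agent.P281.H716.IsSys Vale.Agent.P281.H716.KL
open Vale.Agent.P281.H167.GM (mixX mixD addF phiD ev_posDef)
open Vale.Agent.P281.H227.GMC (isClosed_addF)
open Vale.Agent.P281.H167.KG (LocAt FormPartG)
open Vale.Agent.P281.H167.LC (CorePartC)
open Vale.Agent.P281.H368.MFS (IsSemiPos VolLoc ConAt SmallAt GrowthPartM)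

section

variable {n : ℕ} {X : Type} [TopologicalSpace X] [ChartedSpace (Cm n) X]
  [IsManifold 𝓘(ℂ, Cm n) ω X]

theorem semiPos_zero : IsSemiPos (fun _ _ => 0 : D.FormM n X) := by
  refine ⟨fun e x he i j => contDiffAt_const, fun e x he => Matrix.PosSemidef.zero,
    fun e e' x h h' => ?_, fun e x he i j k => ?_⟩
  · rw [Matrix.mul_zero, Matrix.zero_mul]
  · show dz k (fun _ => (0 : ℂ)) _ = dz i (fun _ => (0 : ℂ)) _
    simp [dz]

/-- the set of the points where `β > 0` and the rank of `θ` is maximal is open -/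
theorem open_good {β θ : D.FormM n X} (hβ : IsSemiPos β) (hθ : IsSemiPos θ) {ν : ℕ}
    (hν : ∀ e x, At e x → (θ e (e x)).rank ≤ ν) :
    IsOpen {x : X | (β (chartAt (Cm n) x) (chartAt (Cm n) x x)).PosDef} ∧
    IsOpen {x : X | (θ (chartAt (Cm n) x) (chartAt (Cm n) x x)).rank = ν} ∧
    (∀ (e e' : Chart n X) (x : X), At e x → At e' x → (β e' (e' x)).PosDef →
      (β e (e x)).PosDef) ∧
    ∀ (e e' : Chart n X) (x : X), At e x → At e' x →
      (θ e (e x)).rank = (θ e' (e' x)).rank := by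
  have hθc := hθ.isClosedForm
  have hβc := hβ.isClosedForm
  have hdet : ∀ (e e' : Chart n X) (x : X), At e x → At e' x → (jacM e e' x).det ≠ 0 :=
    fun e e' x h h' => jacM_det_ne_zero h h'
  have hposc : ∀ (e e' : Chart n X) (x : X), At e x → At e' x → (β e' (e' x)).PosDef →
      (β e (e x)).PosDef := by
    intro e e' x h h' hP
    refine (hβ.posSemidef e x h).posDef_iff_isUnit.2 ?_
    rw [Matrix.isUnit_iff_isUnit_det, isUnit_iff_ne_zero, hβ.change e e' x h h', Matrix.det_mul,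
      Matrix.det_mul, Matrix.det_transpose]
    have h1 := hdet e e' x h h'
    have h2 : ((jacM e e' x).map (starRingEnd ℂ)).det = (starRingEnd ℂ) (jacM e e' x).det := by
      rw [RingHom.map_det]
      rfl
    rw [h2]
    have h3 : (starRingEnd ℂ) (jacM e e' x).det ≠ 0 := by simpa using h1
    exact mul_ne_zero (mul_ne_zero h1 hP.det_pos.ne') h3
  have hrkc : ∀ (e e' : Chart n X) (x : X), At e x → At e' x →
      (θ e (e x)).rank = (θ e' (e' x)).rank := by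
    intro e e' x h h'
    have h1 := hdet e e' x h h'
    have h2 : ((jacM e e' x).map (starRingEnd ℂ)).det = (starRingEnd ℂ) (jacM e e' x).det := by
      rw [RingHom.map_det]
      rfl
    have h3 : IsUnit ((jacM e e' x).map (starRingEnd ℂ)).det := by
      rw [h2, isUnit_iff_ne_zero]
      simpa using h1
    have h4 : IsUnit (jacM e e' x).transpose.det := by
      rw [Matrix.det_transpose, isUnit_iff_ne_zero]
      exact h1
    rw [hθ.change e e' x h h', Matrix.rank_mul_eq_left_of_isUnit_det _ _ h3,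
      Matrix.rank_mul_eq_right_of_isUnit_det _ _ h4]
  have hat : ∀ x : X, At (chartAt (Cm n) x) x := fun x =>
    ⟨chart_mem_atlas _ _, mem_chart_source _ _⟩
  refine ⟨?_, ?_, hposc, hrkc⟩
  · rw [isOpen_iff_mem_nhds]
    intro x hP
    filter_upwards [ev_posDef hβc hβ.posSemidef (hat x) hP] with y hy
    exact hposc _ _ y (hat y) hy.1 hy.2
  · rw [isOpen_iff_mem_nhds]
    intro x hx
    have h1 : ∀ i j, ContinuousAt (fun w => θ (chartAt (Cm n) x) (chartAt (Cm n) x w) i j) x :=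
      fun i j => ((hθc.smooth _ x (hat x) i j).continuousAt).comp (f := chartAt (Cm n) x)
        ((chartAt (Cm n) x).continuousAt (hat x).2)
    filter_upwards [rank_lsc (θ := fun w => θ (chartAt (Cm n) x) (chartAt (Cm n) x w)) h1 hx.ge,
      (chartAt (Cm n) x).open_source.mem_nhds (hat x).2] with y hy hys
    have hAt : At (chartAt (Cm n) x) y := ⟨chart_mem_atlas _ _, hys⟩
    refine le_antisymm (hν _ y (hat y)) ?_
    rw [hrkc _ _ y (hat y) hAt]
    exact hy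

end

/-- **the `X` side**, one volume form, coefficients `≤ 1` -/
theorem coreU1 (hform : FormPartG) (hgr : GrowthPartM) (hcore : CorePartC) {n : ℕ} {X : Type}
    [TopologicalSpace X] [T2Space X] [CompactSpace X] [ConnectedSpace X]
    [ChartedSpace (Cm n) X] [IsManifold 𝓘(ℂ, Cm n) ω X]
    {χ : D.FormM n X} (hχ : IsKahler χ) {Δ : Set X → ℝ} (hΔ : J.IsSNC (Cm n) Δ)
    {m : ℕ} (hm : 0 < m) {k : Set X → ℕ} (hk : ∀ D, (k D : ℝ) = m * Δ D)
    {θ β : D.FormM n X} (hθ : IsSemiPos θ) (hβ : IsSemiPos β)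
    (hβd : Dense {x | (β (chartAt (Cm n) x) (chartAt (Cm n) x x)).PosDef})
    {ν : ℕ} (hν : ∀ e x, At e x → (θ e (e x)).rank ≤ ν)
    (hνd : Dense {x | (θ (chartAt (Cm n) x) (chartAt (Cm n) x x)).rank = ν})
    {W : X → ℝ}
    (hW : ∀ x, ∃ (r : ℕ) (g : Fin r → X → ℂ) (a : Fin r → ℕ),
      VolLoc n m (fun (D : Set X) z g => J.IsLocalEq (Cm n) D g z) k W (fun _ _ => 0) θ x g a ∧
      ∀ᶠ z in 𝓝 x, ∀ i, g i z = 0 → ConAt n (g i) β θ z ∨ SmallAt n ν (g i) θ z) :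
    ∃ (M : ℕ) (Dv : Fin M → Set X) (r : Fin M → X → ℝ) (R : Fin M → D.FormM n X)
      (R' : Set X), Function.Injective Dv ∧ (∀ D, Δ D ≠ 0 ↔ ∃ i, Dv i = D) ∧ IsBd Dv r R ∧
      IsOpen R' ∧ Dense R' ∧
      ∀ (p' μ : ℕ) (K : Fin M → ℕ) (N₀ N₁ : D.FormM n X → X → ℝ) (u : X → ℝ),
        (∀ i, (K i : ℝ) ≤ μ * Δ (Dv i)) → IsDecPair Dv r χ p' μ K N₀ N₁ →
        IsHolNorm (n := n) (fun x => N₀ χ x + N₀ χ x) →
        (∀ g x, IsKahler g → 0 < N₀ g x → 0 < N₁ g x →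
          u x = Real.log (N₁ g x) - Real.log (N₀ g x)) →
        ∀ x ∈ R', 0 < N₀ χ x → 0 < N₁ χ x → ∀ e, At e x → ∀ v : Cm n,
          (∀ j, ∑ i, v i * θ e (e x) i j = 0) → ∑ i, xi u e (e x) i * v i = 0 := by
  classical
  have hθc := hθ.isClosedForm
  have hβc := hβ.isClosedForm
  set T : Finset (Set X) := hΔ.1.toFinset with hTdef
  have hTΔ : ∀ D, D ∈ T ↔ Δ D ≠ 0 := fun D => Set.Finite.mem_toFinset _
  have hTex : ∀ D ∈ T, ∀ x, ∃ g, J.IsLocalEq (Cm n) D g x := fun D hD =>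
    (hΔ.2.1 D ((hTΔ D).1 hD)).2.1
  have hsX : IsSys n (fun (D : Set X) z g => J.IsLocalEq (Cm n) D g z) T :=
    H342.KD.isSys_eqD hTex
  have hm0 : (0 : ℝ) < m := by exact_mod_cast hm
  have hΔ01 : ∀ D, 0 ≤ Δ D ∧ Δ D ≤ 1 := by
    intro D
    obtain ⟨q, hq, hq0, hq1⟩ := hΔ.2.2.1 D
    rw [hq]
    exact ⟨by exact_mod_cast hq0, by exact_mod_cast hq1⟩
  have hksupp : ∀ D, k D ≠ 0 → D ∈ T := by
    intro D hD
    refine (hTΔ D).2 fun h0 => hD ?_
    have h1 := hk D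
    rw [h0, mul_zero] at h1
    exact_mod_cast h1
  -- the divisors and the metrics
  obtain ⟨M, Dv, hinj, hDvT⟩ : ∃ (M : ℕ) (Dv : Fin M → Set X), Function.Injective Dv ∧
      ∀ D, D ∈ T ↔ ∃ i, Dv i = D := by
    refine ⟨T.card, fun i => (T.equivFin.symm i : Set X),
      fun i j hij => T.equivFin.symm.injective (Subtype.ext hij), fun D => ⟨fun hD => ?_, ?_⟩⟩
    · refine ⟨T.equivFin ⟨D, hD⟩, ?_⟩
      show ((T.equivFin.symm (T.equivFin ⟨D, hD⟩) : T) : Set X) = D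
      rw [Equiv.symm_apply_apply]
    · rintro ⟨i, rfl⟩
      exact (T.equivFin.symm i).2
  have hDv : ∀ i, Dv i ∈ T := fun i => (hDvT _).2 ⟨i, rfl⟩
  have hprod : ∀ f : Set X → ℂ, ∏ i, f (Dv i) = ∏ D ∈ T, f D := by
    intro f
    have h1 : T = Finset.univ.image Dv := by
      ext D
      rw [hDvT, Finset.mem_image]
      simp
    rw [h1, Finset.prod_image fun i _ i' _ hii => hinj hii]
  choose ψ hψ hψle using fun i => H342.KD.exists_wt_le hsX (hDv i)
  have hφ := AMP.Main.isCanonical_logdet hχ.toIsHermitian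
  set φ : Chart n X → Cm n → ℝ := fun e z => Real.log (χ e z).det.re with hφd
  set r : Fin M → X → ℝ := fun i => H342.KD.rr hsX (Dv i) (ψ i) with hrd
  have hBd : IsBd Dv r fun i => Vale.Agent.P285.TM.cv (H342.KD.OD hsX (Dv i) (hDv i)) (ψ i) := by
    refine H342.KD.isBd hsX hinj hDv hψ hψle ?_
    intro x g hg c
    obtain ⟨ξ, hξ⟩ := hΔ.2.2.2 x g (fun D hD hx => hg D ((hTΔ D).2 hD) hx)
      (fun D => c ⟨D.1, (hTΔ D.1).2 D.2.1, D.2.2⟩)
    exact ⟨ξ, funext fun D => congrFun hξ ⟨D.1, (hTΔ D.1).1 D.2.1, D.2.2⟩⟩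
  obtain ⟨ρ, C, C₁, hρs, hρ0, hρd, hcurv, hg⟩ := metU hform hgr hχ hsX hprod hDv hψ hφ hBd hm
    hksupp (dl := fun i => Δ (Dv i)) (fun i => hk (Dv i)) hθ semiPos_zero hθ
    (fun e z => (add_zero (θ e z)).symm) hβ hν hW
  -- the good points
  have hDpr : ∀ D, Δ D ≠ 0 → IsPrimeDivisor (Cm n) D := fun D hD => (JB.snc hΔ).prime D hD
  have hoff := dense_compl_finite (X := X) hΔ.1 (fun D hD => (hDpr D hD).1) (fun D hD => by
    rw [dense_iff_inter_open]
    intro U hU hUne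
    obtain ⟨x, hxU, hxD⟩ := IsLocalEq.exists_notMem (hDpr D hD).2.1 hU hUne
    exact ⟨x, hxU, hxD⟩)
  obtain ⟨ho₄, ho₅, hposc, hrkc⟩ := open_good hβ hθ hν
  set R₁ : Set X := {x | ∀ D ∈ {D | Δ D ≠ 0}, x ∉ D} with hR₁
  set R₂ : Set X := {x | 0 < ρ x} with hR₂
  set R₄ : Set X := {x | (β (chartAt (Cm n) x) (chartAt (Cm n) x x)).PosDef} with hR₄
  set R₅ : Set X := {x | (θ (chartAt (Cm n) x) (chartAt (Cm n) x x)).rank = ν} with hR₅
  have ho₂ : IsOpen R₂ := isOpen_lt continuous_const (INT.SmoothFn.continuous hρs)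
  have hat : ∀ x : X, At (chartAt (Cm n) x) x := fun x =>
    ⟨chart_mem_atlas _ _, mem_chart_source _ _⟩
  have hRo : IsOpen (R₁ ∩ R₂ ∩ R₄ ∩ R₅) := ((hoff.1.inter ho₂).inter ho₄).inter ho₅
  have hRd : Dense (R₁ ∩ R₂ ∩ R₄ ∩ R₅) :=
    ((hoff.2.inter_of_isOpen_left hρd hoff.1).inter_of_isOpen_left hβd
      (hoff.1.inter ho₂)).inter_of_isOpen_left hνd ((hoff.1.inter ho₂).inter ho₄)
  refine ⟨M, Dv, r, _, R₁ ∩ R₂ ∩ R₄ ∩ R₅, hinj,
    (fun D => (hTΔ D).symm.trans (hDvT D)), hBd, hRo, hRd, ?_⟩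
  intro p' μ K N₀ N₁ u hK hdec hhol hu x hx h0 h1 e he v hv
  obtain ⟨⟨⟨hxo, hx0⟩, hx4⟩, hx5⟩ := hx
  have hrx : ∀ i, 0 < r i x := by
    intro i
    obtain ⟨g, ψ', -, -, h3, -, h5⟩ := hBd.loc _ x (hat x)
    have h6 := (h5.self_of_nhds i).1
    rw [(hat x).left_inv] at h6
    rw [h6]
    have h7 : g i (chartAt (Cm n) x x) ≠ 0 := fun h0 =>
      hxo (Dv i) ((hTΔ _).1 (hDv i)) ((H342.KD.mem_iff (h3 i)).2 h0)
    exact mul_pos (pow_pos (norm_pos_iff.2 h7) 2) (Real.exp_pos _)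
  exact hcore n M X χ hχ φ hφ m hm ρ hρs hρ0 Dv r _ hBd (fun i => Δ (Dv i))
    (fun i => hΔ01 (Dv i)) C (curvK_of hφ hρs hρ0 hcurv) θ β hθc hβc hθ.posSemidef hβ.posSemidef
    ν C₁ ((eventually_ge_atTop 1).frequently.mono fun s hs => hg s hs) p' μ K hK N₀ N₁ hdec hhol u
    hu e x he h0 h1 hx0 hrx (hposc e _ x he (hat x) hx4) ((hrkc e _ x he (hat x)).trans hx5) v hv

end Vale.Agent.P281.H342.U
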