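import Vale.Agent.P281.H342.U.Core
import Vale.Agent.P281.H716.Lin

/-! P281, theorem U (numerical dimension), the `X` side: assembly. -/

open scoped Manifold ContDiff Topology ComplexOrder
open Set Filter Vale.Agent.P281 Vale.Agent.P272.K Vale.Agent.P272.K.AMP Vale.Agent.P299
open Vale.Agent.P299.H882 (xi qf)
open Vale.Agent.P272.K.INT (IsClosedForm IsDensity)

set_option linter.all false

noncomputable section

namespace Vale.Agent.P281.H342.U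

open Vale.Agent.P281.MF Vale.Agent.P281.ISO
open Vale.Agent.P281.H713 Vale.Agent.P281.H713.SA Vale.Agent.P281.H713.KD Vale.Agent.P281.H716
open Vale.Agent.P281.H716.IsSys Vale.Agent.P281.H716.KL
open Vale.Agent.P281.H167.GM (mixX mixD addF phiD ev_posDef)
open Vale.Agent.P281.H227.GMC (isClosed_addF)
open Vale.Agent.P281.H167.KG (LocAt FormPartG)
open Vale.Agent.P281.H368.MFS (IsSemiPos VolLoc ConAt SmallAt GrowthPartM)

section

variable {n : ℕ} {X : Type} [TopologicalSpace X] [ChartedSpace (Cm n) X]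
  [IsManifold 𝓘(ℂ, Cm n) ω X]

theorem semiPos_add {θ₀ θ₁ θ : D.FormM n X} (h₀ : IsSemiPos θ₀) (h₁ : IsSemiPos θ₁)
    (h : ∀ e z, θ e z = θ₀ e z + θ₁ e z) : IsSemiPos θ := by
  have h2 : θ = addF θ₀ 1 θ₁ := by
    funext e z
    show θ e z = θ₀ e z + ((1 : ℝ) : ℂ) • θ₁ e z
    rw [Complex.ofReal_one, one_smul, h]
  have h3 : IsClosedForm θ := by
    rw [h2]
    exact isClosed_addF h₀.isClosedForm h₁.isClosedForm 1
  refine ⟨h3.smooth, fun e x he => ?_, fun e e' x hx hx' => h3.form e e' x hx hx',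
    fun e x hx i j k => h3.closed e x hx k i j⟩
  rw [h]
  exact (h₀.posSemidef e x he).add (h₁.posSemidef e x he)

end

/-- **the `X` side**: the quotients of tensors are constant along the kernel of `θ = θ₀ + θ₁` -/
theorem coreU (hform : FormPartG) (hgr : GrowthPartM) (hcore : CorePartLG) {n : ℕ} {X : Type}
    [TopologicalSpace X] [T2Space X] [CompactSpace X] [ConnectedSpace X]
    [ChartedSpace (Cm n) X] [IsManifold 𝓘(ℂ, Cm n) ω X]
    {χ : D.FormM n X} (hχ : IsKahler χ)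
    {Δ Δ₀ : Set X → ℝ} (hΔ : J.IsSNC (Cm n) Δ) (hΔ₀1 : ∀ D, Δ₀ D < 1)
    (hle : ∀ D, Δ₀ D ≤ Δ D) {t : ℝ} (ht : 0 < t)
    {m : ℕ} (hm : 0 < m) {k : Set X → ℕ} (hk : ∀ D, (k D : ℝ) = m * Δ₀ D)
    {m' : ℕ} (hm' : 0 < m') {k' : Set X → ℕ}
    (hk' : ∀ D, (k' D : ℝ) = m' * (Δ₀ D + t * (Δ D - Δ₀ D)))
    {θ₀ θ₁ θ β : D.FormM n X} (hθ₀ : IsSemiPos θ₀) (hθ₁ : IsSemiPos θ₁)
    (hsum : ∀ e z, θ e z = θ₀ e z + θ₁ e z) (hβ : IsSemiPos β)
    (hβd : Dense {x | (β (chartAt (Cm n) x) (chartAt (Cm n) x x)).PosDef})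
    {ν : ℕ} (hν : ∀ e x, At e x → (θ e (e x)).rank ≤ ν)
    (hνd : Dense {x | (θ (chartAt (Cm n) x) (chartAt (Cm n) x x)).rank = ν})
    {W₀ W₁ : X → ℝ}
    (hW₀ : ∀ x, ∃ (r : ℕ) (g : Fin r → X → ℂ) (a : Fin r → ℕ),
      VolLoc n m (fun (D : Set X) z g => J.IsLocalEq (Cm n) D g z) k W₀ (fun _ _ => 0) θ₀ x g a ∧
      ∀ᶠ z in 𝓝 x, ∀ i, g i z = 0 → ConAt n (g i) β θ z ∨ SmallAt n ν (g i) θ z)
    (hW₁ : ∀ x, ∃ (r : ℕ) (g : Fin r → X → ℂ) (a : Fin r → ℕ),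
      VolLoc n m' (fun (D : Set X) z g => J.IsLocalEq (Cm n) D g z) k' W₁ (fun _ _ => 0) θ₁ x g a ∧
      ∀ᶠ z in 𝓝 x, ∀ i, g i z = 0 → ConAt n (g i) β θ z ∨ SmallAt n ν (g i) θ z) :
    ∃ (M : ℕ) (Dv : Fin M → Set X) (r : Fin M → X → ℝ) (R : Fin M → D.FormM n X) (m₀ : ℕ)
      (R' : Set X), Function.Injective Dv ∧ (∀ D, Δ D ≠ 0 ↔ ∃ i, Dv i = D) ∧ IsBd Dv r R ∧
      0 < m₀ ∧ IsOpen R' ∧ Dense R' ∧
      ∀ (p' μ : ℕ) (K : Fin M → ℕ) (N₀ N₁ : D.FormM n X → X → ℝ) (u : X → ℝ), m₀ ∣ μ →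
        (∀ i, (K i : ℝ) ≤ μ * Δ (Dv i)) → IsDecPair Dv r χ p' μ K N₀ N₁ →
        (∀ g x, IsKahler g → 0 < N₀ g x → 0 < N₁ g x →
          u x = Real.log (N₁ g x) - Real.log (N₀ g x)) →
        ∀ x ∈ R', 0 < N₀ χ x → 0 < N₁ χ x → ∀ e, At e x → ∀ v : Cm n,
          (∀ j, ∑ i, v i * θ e (e x) i j = 0) → ∑ i, xi u e (e x) i * v i = 0 := by
  classical
  have hθ : IsSemiPos θ := semiPos_add hθ₀ hθ₁ hsum
  have hθc := hθ.isClosedForm
  have hβc := hβ.isClosedForm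
  set T : Finset (Set X) := hΔ.1.toFinset with hTdef
  have hTΔ : ∀ D, D ∈ T ↔ Δ D ≠ 0 := fun D => Set.Finite.mem_toFinset _
  have hTex : ∀ D ∈ T, ∀ x, ∃ g, J.IsLocalEq (Cm n) D g x := fun D hD =>
    (hΔ.2.1 D ((hTΔ D).1 hD)).2.1
  have hsX : IsSys n (fun (D : Set X) z g => J.IsLocalEq (Cm n) D g z) T :=
    H342.KD.isSys_eqD hTex
  have hm0 : (0 : ℝ) < m := by exact_mod_cast hm
  have hm'0 : (0 : ℝ) < m' := by exact_mod_cast hm'
  have hΔ₀0 : ∀ D, 0 ≤ Δ₀ D := by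
    intro D
    have h1 := hk D
    have h2 : (0 : ℝ) ≤ m * Δ₀ D := h1 ▸ Nat.cast_nonneg _
    exact nonneg_of_mul_nonneg_right h2 hm0
  set Δ₁ : Set X → ℝ := fun D => Δ₀ D + t * (Δ D - Δ₀ D) with hΔ₁d
  have hzero : ∀ D, Δ D = 0 → Δ₀ D = 0 := fun D hD => le_antisymm (hD ▸ hle D) (hΔ₀0 D)
  have hksupp : ∀ D, k D ≠ 0 → D ∈ T := by
    intro D hD
    refine (hTΔ D).2 fun h0 => hD ?_
    have h1 := hk D
    rw [hzero D h0, mul_zero] at h1
    exact_mod_cast h1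
  have hk'supp : ∀ D, k' D ≠ 0 → D ∈ T := by
    intro D hD
    refine (hTΔ D).2 fun h0 => hD ?_
    have h1 := hk' D
    rw [hzero D h0, h0, sub_self, mul_zero, add_zero, mul_zero] at h1
    exact_mod_cast h1
  -- the divisors and the metrics
  obtain ⟨M, Dv, hinj, hDvT⟩ : ∃ (M : ℕ) (Dv : Fin M → Set X), Function.Injective Dv ∧
      ∀ D, D ∈ T ↔ ∃ i, Dv i = D := by
    refine ⟨T.card, fun i => (T.equivFin.symm i : Set X),
      fun i j hij => T.equivFin.symm.injective (Subtype.ext hij), fun D => ⟨fun hD => ?_, ?_⟩⟩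
    · refine ⟨T.equivFin ⟨D, hD⟩, ?_⟩
      show ((T.equivFin.symm (T.equivFin ⟨D, hD⟩) : T) : Set X) = D
      rw [Equiv.symm_apply_apply]
    · rintro ⟨i, rfl⟩
      exact (T.equivFin.symm i).2
  have hDv : ∀ i, Dv i ∈ T := fun i => (hDvT _).2 ⟨i, rfl⟩
  have hprod : ∀ f : Set X → ℂ, ∏ i, f (Dv i) = ∏ D ∈ T, f D := by
    intro f
    have h1 : T = Finset.univ.image Dv := by
      ext D
      rw [hDvT, Finset.mem_image]
      simp
    rw [h1, Finset.prod_image fun i _ i' _ hii => hinj hii]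
  choose ψ hψ hψle using fun i => H342.KD.exists_wt_le hsX (hDv i)
  have hφ := AMP.Main.isCanonical_logdet hχ.toIsHermitian
  set φ : Chart n X → Cm n → ℝ := fun e z => Real.log (χ e z).det.re with hφd
  set r : Fin M → X → ℝ := fun i => H342.KD.rr hsX (Dv i) (ψ i) with hrd
  have hBd : IsBd Dv r fun i => Vale.Agent.P285.TM.cv (H342.KD.OD hsX (Dv i) (hDv i)) (ψ i) := by
    refine H342.KD.isBd hsX hinj hDv hψ hψle ?_
    intro x g hg c
    obtain ⟨ξ, hξ⟩ := hΔ.2.2.2 x g (fun D hD hx => hg D ((hTΔ D).2 hD) hx)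
      (fun D => c ⟨D.1, (hTΔ D.1).2 D.2.1, D.2.2⟩)
    exact ⟨ξ, funext fun D => congrFun hξ ⟨D.1, (hTΔ D.1).1 D.2.1, D.2.2⟩⟩
  obtain ⟨ρ₀, C, C₁, hρ₀s, hρ₀0, hρ₀d, hcurv₀, hg₀⟩ := metU hform hgr hχ hsX hprod hDv hψ hφ hBd hm
    hksupp (dl := fun i => Δ₀ (Dv i)) (fun i => hk (Dv i)) hθ₀ hθ₁ hθ hsum hβ hν hW₀
  obtain ⟨ρ₁, C', C₁', hρ₁s, hρ₁0, hρ₁d, hcurv₁, hg₁⟩ := metU hform hgr hχ hsX hprod hDv hψ hφ hBd
    hm' hk'supp (dl := fun i => Δ₁ (Dv i)) (fun i => hk' (Dv i)) hθ₁ hθ₀ hθ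
    (fun e z => (hsum e z).trans (add_comm _ _)) hβ hν hW₁
  -- the good points
  have hDpr : ∀ D, Δ D ≠ 0 → IsPrimeDivisor (Cm n) D := fun D hD => (JB.snc hΔ).prime D hD
  have hoff := dense_compl_finite (X := X) hΔ.1 (fun D hD => (hDpr D hD).1) (fun D hD => by
    rw [dense_iff_inter_open]
    intro U hU hUne
    obtain ⟨x, hxU, hxD⟩ := IsLocalEq.exists_notMem (hDpr D hD).2.1 hU hUne
    exact ⟨x, hxU, hxD⟩)
  set R₁ : Set X := {x | ∀ D ∈ {D | Δ D ≠ 0}, x ∉ D} with hR₁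
  set R₂ : Set X := {x | 0 < ρ₀ x} with hR₂
  set R₃ : Set X := {x | 0 < ρ₁ x} with hR₃
  set R₄ : Set X := {x | (β (chartAt (Cm n) x) (chartAt (Cm n) x x)).PosDef} with hR₄
  set R₅ : Set X := {x | (θ (chartAt (Cm n) x) (chartAt (Cm n) x x)).rank = ν} with hR₅
  have hdet : ∀ (e e' : Chart n X) (x : X), At e x → At e' x → (jacM e e' x).det ≠ 0 :=
    fun e e' x h h' => jacM_det_ne_zero h h'
  have hposc : ∀ (e e' : Chart n X) (x : X), At e x → At e' x → (β e' (e' x)).PosDef →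
      (β e (e x)).PosDef := by
    intro e e' x h h' hP
    refine (hβ.posSemidef e x h).posDef_iff_isUnit.2 ?_
    rw [Matrix.isUnit_iff_isUnit_det, isUnit_iff_ne_zero, hβ.change e e' x h h', Matrix.det_mul,
      Matrix.det_mul, Matrix.det_transpose]
    have h1 := hdet e e' x h h'
    have h2 : ((jacM e e' x).map (starRingEnd ℂ)).det = (starRingEnd ℂ) (jacM e e' x).det := by
      rw [RingHom.map_det]
      rfl
    rw [h2]
    have h3 : (starRingEnd ℂ) (jacM e e' x).det ≠ 0 := by simpa using h1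
    exact mul_ne_zero (mul_ne_zero h1 hP.det_pos.ne') h3
  have hrkc : ∀ (e e' : Chart n X) (x : X), At e x → At e' x →
      (θ e (e x)).rank = (θ e' (e' x)).rank := by
    intro e e' x h h'
    have h1 := hdet e e' x h h'
    have h2 : ((jacM e e' x).map (starRingEnd ℂ)).det = (starRingEnd ℂ) (jacM e e' x).det := by
      rw [RingHom.map_det]
      rfl
    have h3 : IsUnit ((jacM e e' x).map (starRingEnd ℂ)).det := by
      rw [h2, isUnit_iff_ne_zero]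
      simpa using h1
    have h4 : IsUnit (jacM e e' x).transpose.det := by
      rw [Matrix.det_transpose, isUnit_iff_ne_zero]
      exact h1
    rw [hθ.change e e' x h h', Matrix.rank_mul_eq_left_of_isUnit_det _ _ h3,
      Matrix.rank_mul_eq_right_of_isUnit_det _ _ h4]
  have ho₂ : IsOpen R₂ := isOpen_lt continuous_const (INT.SmoothFn.continuous hρ₀s)
  have ho₃ : IsOpen R₃ := isOpen_lt continuous_const (INT.SmoothFn.continuous hρ₁s)
  have hat : ∀ x : X, At (chartAt (Cm n) x) x := fun x =>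
    ⟨chart_mem_atlas _ _, mem_chart_source _ _⟩
  have ho₄ : IsOpen R₄ := by
    rw [isOpen_iff_mem_nhds]
    intro x hP
    filter_upwards [ev_posDef hβc hβ.posSemidef (hat x) hP] with y hy
    exact hposc _ _ y (hat y) hy.1 hy.2
  have ho₅ : IsOpen R₅ := by
    rw [isOpen_iff_mem_nhds]
    intro x hx
    have h1 : ∀ i j, ContinuousAt (fun w => θ (chartAt (Cm n) x) (chartAt (Cm n) x w) i j) x :=
      fun i j => ((hθc.smooth _ x (hat x) i j).continuousAt).comp (f := chartAt (Cm n) x)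
        ((chartAt (Cm n) x).continuousAt (hat x).2)
    filter_upwards [rank_lsc (θ := fun w => θ (chartAt (Cm n) x) (chartAt (Cm n) x w)) h1 hx.ge,
      (chartAt (Cm n) x).open_source.mem_nhds (hat x).2] with y hy hys
    have hAt : At (chartAt (Cm n) x) y := ⟨chart_mem_atlas _ _, hys⟩
    refine le_antisymm (hν _ y (hat y)) ?_
    rw [hrkc _ _ y (hat y) hAt]
    exact hy
  have hRo : IsOpen (R₁ ∩ R₂ ∩ R₃ ∩ R₄ ∩ R₅) :=
    (((hoff.1.inter ho₂).inter ho₃).inter ho₄).inter ho₅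
  have hRd : Dense (R₁ ∩ R₂ ∩ R₃ ∩ R₄ ∩ R₅) :=
    (((hoff.2.inter_of_isOpen_left hρ₀d hoff.1).inter_of_isOpen_left hρ₁d
      (hoff.1.inter ho₂)).inter_of_isOpen_left hβd ((hoff.1.inter ho₂).inter
      ho₃)).inter_of_isOpen_left hνd (((hoff.1.inter ho₂).inter ho₃).inter ho₄)
  obtain ⟨l, hl, K₁, hK₁, -⟩ := exists_denominator (JB.snc hΔ)
  refine ⟨M, Dv, r, _, l * m, R₁ ∩ R₂ ∩ R₃ ∩ R₄ ∩ R₅, hinj,
    (fun D => (hTΔ D).symm.trans (hDvT D)), hBd, Nat.mul_pos hl hm, hRo, hRd, ?_⟩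
  intro p' μ K N₀ N₁ u hμ hK hdec hu x hx h0 h1 e he v hv
  obtain ⟨⟨⟨⟨hxo, hx0⟩, hx1⟩, hx4⟩, hx5⟩ := hx
  obtain ⟨c, rfl⟩ := hμ
  have hE : ∀ i, ((c * (m * K₁ (Dv i) - l * k (Dv i)) : ℕ) : ℝ) =
      ((l * m * c : ℕ) : ℝ) * (Δ (Dv i) - Δ₀ (Dv i)) := by
    intro i
    have h2 : l * k (Dv i) ≤ m * K₁ (Dv i) := by
      have h3 : ((l * k (Dv i) : ℕ) : ℝ) ≤ ((m * K₁ (Dv i) : ℕ) : ℝ) := by
        push_cast
        rw [hk, hK₁]
        have h4 := mul_le_mul_of_nonneg_left (hle (Dv i)) (by positivity : (0 : ℝ) ≤ l * m)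
        calc (l : ℝ) * (m * Δ₀ (Dv i)) = l * m * Δ₀ (Dv i) := by ring
          _ ≤ l * m * Δ (Dv i) := h4
          _ = m * (l * Δ (Dv i)) := by ring
      exact_mod_cast h3
    push_cast [Nat.cast_sub h2]
    rw [hk, hK₁]
    ring
  have hrx : ∀ i, 0 < r i x := by
    intro i
    obtain ⟨g, ψ', -, -, h3, -, h5⟩ := hBd.loc _ x (hat x)
    have h6 := (h5.self_of_nhds i).1
    rw [(hat x).left_inv] at h6
    rw [h6]
    have h7 : g i (chartAt (Cm n) x x) ≠ 0 := fun h0 =>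
      hxo (Dv i) ((hTΔ _).1 (hDv i)) ((H342.KD.mem_iff (h3 i)).2 h0)
    exact mul_pos (pow_pos (norm_pos_iff.2 h7) 2) (Real.exp_pos _)
  refine core_shiftU hcore hχ hφ hBd (dl := fun i => Δ₀ (Dv i)) (dl' := fun i => Δ (Dv i))
    (fun i => ⟨hΔ₀0 (Dv i), hΔ₀1 (Dv i)⟩) (fun i => hle (Dv i)) ht hm hm' hρ₀s hρ₀0 hρ₁s hρ₁0
    hcurv₀ hcurv₁ hθc hβc hθ.posSemidef hβ.posSemidef (C₂ := max C₁ C₁')
    (fun s hs => ?_) hK hE hdec hu he h0 h1 hx0 hx1 hrx (hposc e _ x he (hat x) hx4)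
    ((hrkc e _ x he (hat x)).trans hx5) v hv
  have hs0 : (0 : ℝ) < s := lt_of_lt_of_le one_pos hs
  have h7 : (0 : ℝ) ≤ s ^ ν / s := by positivity
  constructor
  · refine (hg₀ s hs).trans ?_
    have := mul_le_mul_of_nonneg_right (le_max_left C₁ C₁') h7
    rw [mul_div_assoc, mul_div_assoc]
    exact this
  · refine (hg₁ s hs).trans ?_
    have := mul_le_mul_of_nonneg_right (le_max_right C₁ C₁') h7
    rw [mul_div_assoc, mul_div_assoc]
    exact this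

end Vale.Agent.P281.H342.U
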